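import Vale.Agent.P183.Closed

/-!
P183: the representation seen through the core: principal pairs and chains of their images.
-/

namespace Vale.Agent.P183

/-- A representation through which a distinguished (core) set of elements is seen faithfully. -/
structure Base (L : Type*) [Lattice L] [OrderBot L] where
  /-- The core predicate. -/
  Core : L → Prop
  /-- The number of points. -/
  n : ℕ
  /-- The relations. -/
  Φ : L → Setoid (Fin n)
  /-- Monotone. -/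
  mono : Monotone Φ
  /-- Reflecting at joins of core irreducibles. -/
  refl_le : ∀ x y, (∃ s : Finset L, s.sup id = x ∧ ∀ i ∈ s, SupIrred i ∧ Core i) →
    Φ x ≤ Φ y → x ≤ y
  /-- Closed. -/
  closed : ∀ θ : Setoid (Fin n),
    (∀ g : Fin n → Fin n, Good Φ Φ g → ∀ u v, θ u v → θ (g u) (g v)) →
      ∃ x, (∃ s : Finset L, s.sup id = x ∧ ∀ i ∈ s, SupIrred i ∧ Core i) ∧ θ = Φ x
  /-- Covers of core irreducibles refine into the core. -/
  refineCore : ∀ e, SupIrred e → Core e → ∀ C : Finset L, e ≤ C.sup id →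
    ∃ C' : Finset L, (∀ i ∈ C', SupIrred i ∧ Core i ∧ ∃ c ∈ C, i ≤ c) ∧ e ≤ C'.sup id

variable {L : Type*} [Lattice L] [OrderBot L]

theorem Base.exists_pair (B : Base L) {j : L} (hj : SupIrred j) (hja : B.Core j) :
    ∃ p q, ∀ x, B.Φ x p q ↔ j ≤ x := by
  classical
  let S : Fin B.n → Fin B.n → Setoid (Fin B.n) := fun p q =>
    sInf {s | s p q ∧ ∀ g : Fin B.n → Fin B.n, Good B.Φ B.Φ g → ∀ u v, s u v → s (g u) (g v)}
  have hS : ∀ p q, ∃ y, (∃ s : Finset L, s.sup id = y ∧ ∀ i ∈ s, SupIrred i ∧ B.Core i) ∧ S p q = B.Φ y := fun p q => B.closed _ fun g hg u v huv s hs =>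
    hs.2 g hg u v (huv s hs)
  choose y hya hy using hS
  have hpq : ∀ p q, B.Φ (y p q) p q := fun p q => by rw [← hy]; exact fun s hs => hs.1
  have hle : ∀ p q x, B.Φ x p q → y p q ≤ x := fun p q x hx => B.refl_le _ _ (hya p q) <| by
    rw [← hy]; exact sInf_le ⟨hx, fun g hg u v h => hg x u v h⟩
  let T : Finset (Fin B.n × Fin B.n) := Finset.univ.filter fun t => B.Φ j t.1 t.2
  have h1 : T.sup (fun t => y t.1 t.2) = j := by
    refine le_antisymm (Finset.sup_le fun t ht => hle _ _ _ (Finset.mem_filter.1 ht).2) ?_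
    refine B.refl_le _ _ ⟨{j}, by simp, by simpa using ⟨hj, hja⟩⟩ fun u v huv => ?_
    exact B.mono (Finset.le_sup (f := fun t : Fin B.n × Fin B.n => y t.1 t.2) (s := T)
      (b := (u, v)) (Finset.mem_filter.2 ⟨Finset.mem_univ _, huv⟩)) (hpq u v)
  obtain ⟨⟨p, q⟩, -, hpqj⟩ := hj.finset_sup_eq h1
  dsimp only at hpqj
  exact ⟨p, q, fun x => ⟨fun h => hpqj ▸ hle p q x h, fun h => B.mono h (hpqj ▸ hpq p q)⟩⟩

theorem Base.exists_walk (B : Base L) {ι : Type*} (C : Finset ι) (f : ι → L)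
    (p q : ι → Fin B.n) (hpq : ∀ i ∈ C, ∀ x, B.Φ x (p i) (q i) ↔ f i ≤ x)
    {e : L} (he : e ≤ C.sup f) {u v : Fin B.n} (huv : ∀ x, B.Φ x u v ↔ e ≤ x) :
    ∃ (G : SimpleGraph (Fin B.n)) (w : G.Walk u v), w.length ≤ B.n ∧ ∀ c d, G.Adj c d →
      ∃ i ∈ C, ∃ g : Fin B.n → Fin B.n, Good B.Φ B.Φ g ∧
        ((g (p i) = c ∧ g (q i) = d) ∨ (g (q i) = c ∧ g (p i) = d)) := by
  classical
  let r : Fin B.n → Fin B.n → Prop := fun c d =>
      ∃ i ∈ C, ∃ g : Fin B.n → Fin B.n, Good B.Φ B.Φ g ∧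
        ((g (p i) = c ∧ g (q i) = d) ∨ (g (q i) = c ∧ g (p i) = d))
  let G : SimpleGraph (Fin B.n) := SimpleGraph.fromRel r
  have hG : ∀ c d, G.Adj c d → r c d := by
    rintro c d ⟨-, h | ⟨i, hi, g, hg, h⟩⟩
    · exact h
    · exact ⟨i, hi, g, hg, h.symm.imp And.symm And.symm⟩
  let θ : Setoid (Fin B.n) := G.reachableSetoid
  have hadj : ∀ c d, r c d → θ c d := fun c d h => by
    by_cases hcd : c = d
    · subst hcd; exact θ.refl' c
    · exact SimpleGraph.Adj.reachable (G := G) ⟨hcd, Or.inl h⟩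
  obtain ⟨x, -, hx⟩ := B.closed θ fun g hg c d h => by
    obtain ⟨w⟩ := h
    induction w with
    | nil => exact θ.refl' _
    | cons h _ ih =>
      obtain ⟨i, hi, g', hg', h'⟩ := hG _ _ h
      refine θ.trans' (hadj _ _ ⟨i, hi, g ∘ g', fun x a b hab => hg x _ _ (hg' x a b hab),
        h'.imp ?_ ?_⟩) ih <;> rintro ⟨rfl, rfl⟩ <;> exact ⟨rfl, rfl⟩
  have hC : C.sup f ≤ x := Finset.sup_le fun i hi => (hpq i hi x).1 <| by
    rw [← hx]; exact hadj _ _ ⟨i, hi, id, fun _ _ _ h => h, Or.inl ⟨rfl, rfl⟩⟩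
  have : θ u v := by rw [hx]; exact (huv x).2 (he.trans hC)
  obtain ⟨w⟩ := (this : G.Reachable u v)
  refine ⟨G, w.toPath, ?_, hG⟩
  exact (w.toPath.2.length_lt).le.trans (Fintype.card_fin _).le

end Vale.Agent.P183
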