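import Vale.Agent.P183.Points

/-!
P183: chains of good images of roots, and maps defined along the paths.
-/

namespace Vale.Agent.P183

variable {L : Type*} [Lattice L] [OrderBot L] [Fintype L] (S : Frame L) {T : Type*}
  (Ψ : L → Setoid T)

/-- A chain of good images of roots following a word. -/
def Chain : List (Irr L × Bool) → T → T → Prop
  | [], P, Q => Ψ ⊥ P Q
  | (c, b) :: l, P, Q => ∃ h : Pt S c → T, Good (relSetoid S c) Ψ h ∧
      Ψ ⊥ P (h (Pt.root c (!b))) ∧ Chain l (h (Pt.root c b)) Q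

variable {S Ψ}

theorem good_const {V : Type*} {Φ : L → Setoid V} (t : T) : Good Φ Ψ (fun _ => t) :=
  fun x _ _ _ => (Ψ x).refl' t

theorem Chain.left {l : List (Irr L × Bool)} {P P' Q : T} (h : Ψ ⊥ P' P) (hc : Chain S Ψ l P Q) :
    Chain S Ψ l P' Q := by
  cases l with
  | nil => exact (Ψ ⊥).trans' h hc
  | cons t l =>
    obtain ⟨g, hg, hP, hQ⟩ := hc
    exact ⟨g, hg, (Ψ ⊥).trans' h hP, hQ⟩

theorem Chain.right : ∀ {l : List (Irr L × Bool)} {P Q Q' : T}, Chain S Ψ l P Q → Ψ ⊥ Q Q' →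
    Chain S Ψ l P Q'
  | [], _, _, _, h, h' => (Ψ ⊥).trans' h h'
  | (_, _) :: _, _, _, _, ⟨g, hg, hP, hQ⟩, h' => ⟨g, hg, hP, Chain.right hQ h'⟩

theorem Chain.append : ∀ {l l' : List (Irr L × Bool)} {P Q R : T}, Chain S Ψ l P Q →
    Chain S Ψ l' Q R → Chain S Ψ (l ++ l') P R
  | [], _, _, _, _, h, h' => h'.left h
  | (_, _) :: _, _, _, _, _, ⟨g, hg, hP, hQ⟩, h' => ⟨g, hg, hP, Chain.append hQ h'⟩

theorem Chain.sublist {s l : List (Irr L × Bool)} (hs : s.Sublist l) :
    ∀ {P Q : T}, Chain S Ψ s P Q → Chain S Ψ l P Q := by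
  induction hs with
  | slnil => exact id
  | cons t _ ih =>
    intro P Q h
    exact ⟨fun _ => P, good_const P, (Ψ ⊥).refl' P, ih h⟩
  | cons_cons t _ ih =>
    intro P Q h
    obtain ⟨g, hg, hP, hQ⟩ := h
    exact ⟨g, hg, hP, ih hQ⟩

/-- The reversed word. -/
def revWord (l : List (Irr L × Bool)) : List (Irr L × Bool) :=
  (l.map fun t => (t.1, !t.2)).reverse

theorem Chain.reverse : ∀ {l : List (Irr L × Bool)} {P Q : T}, Chain S Ψ l P Q →
    Chain S Ψ (revWord l) Q P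
  | [], _, _, h => (Ψ ⊥).symm' h
  | (c, b) :: l, P, Q, ⟨g, hg, hP, hQ⟩ => by
    have h := Chain.append (Chain.reverse hQ)
      (l' := [(c, !b)]) (R := P) ⟨g, hg, by simpa using (Ψ ⊥).refl' _, (Ψ ⊥).symm' hP⟩
    simpa [revWord] using h

theorem Chain.map {T' : Type*} {Ψ' : L → Setoid T'} {g : T → T'} (hg : Good Ψ Ψ' g) :
    ∀ {l : List (Irr L × Bool)} {P Q : T}, Chain S Ψ l P Q → Chain S Ψ' l (g P) (g Q)
  | [], _, _, h => hg _ _ _ h
  | (_, _) :: _, _, _, ⟨f, hf, hP, hQ⟩ =>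
    ⟨g ∘ f, fun x u v huv => hg x _ _ (hf x u v huv), hg _ _ _ hP, Chain.map hg hQ⟩

theorem Chain.indexed : ∀ {l : List (Irr L × Bool)} {P Q : T}, Chain S Ψ l P Q →
    ∃ H : (i : Fin l.length) → Pt S (l[i]).1 → T, (∀ i, Good (relSetoid S (l[i]).1) Ψ (H i)) ∧
      ∃ N : ℕ → T, Ψ ⊥ P (N 0) ∧ Ψ ⊥ (N l.length) Q ∧
        ∀ i : Fin l.length, Ψ ⊥ (N i) (H i (Pt.root _ (!(l[i]).2))) ∧
          Ψ ⊥ (N (i + 1)) (H i (Pt.root _ (l[i]).2))
  | [], P, Q, h => ⟨fun i => i.elim0, fun i => i.elim0, fun _ => P, (Ψ ⊥).refl' P, h,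
      fun i => i.elim0⟩
  | (c, b) :: l, P, Q, ⟨g, hg, hP, hQ⟩ => by
    obtain ⟨H, hH, N, hN0, hN1, hN⟩ := Chain.indexed hQ
    refine ⟨fun i => Fin.cases (motive := fun i => Pt S (((c, b) :: l)[i]).1 → T) g H i, fun i => ?_,
      fun m => Nat.casesOn m P N, (Ψ ⊥).refl' P, hN1, fun i => ?_⟩
    · cases i using Fin.cases with
      | zero => exact hg
      | succ i => exact hH i
    · cases i using Fin.cases with
      | zero => exact ⟨hP, (Ψ ⊥).symm' hN0⟩
      | succ i => exact hN i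

variable (S) in
/-- Values along a path give a map with prescribed roots. -/
theorem exists_glue (hΨ : Monotone Ψ) (j : Irr L) (hj : ¬ S.Core (j : L)) (f : Bool → T)
    (htop : Ψ j (f false) (f true))
    (hchain : ∀ C : Cov S j, Chain S Ψ (word S j C) (f false) (f true)) :
    ∃ h : Pt S j → T, Good (relSetoid S j) Ψ h ∧ (∀ b, h (Pt.root j b) = f b) := by
  choose H hH N hN0 hN1 hN using fun C => (hchain C).indexed
  let h : Pt S j → T := fun u => match u with
    | .root _ b => f b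
    | .core _ _ _ => f false
    | .deep _ C i x => H C i x
  refine ⟨h, good_of_parts S Ψ hΨ j h htop (fun hj' => absurd hj' hj) (fun C => ?_)
    (fun C i => hH C i), fun b => rfl⟩
  have hnode : ∀ m, m ≤ (word S j C).length → Ψ ⊥ (h (node S j C m)) (N C m) := by
    intro m hm
    cases m with
    | zero => exact hN0 C
    | succ m =>
      simp only [node, dif_pos (Nat.lt_of_succ_le hm)]
      exact (Ψ ⊥).symm' (hN C ⟨m, Nat.lt_of_succ_le hm⟩).2
  exact ⟨fun i => (Ψ ⊥).trans' (hnode i i.2.le) (hN C i).1,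
    (Ψ ⊥).trans' (hnode _ le_rfl) (hN1 C)⟩

theorem sublist_flatten_replicate {α : Type*} {B : List α} : ∀ {l : List α} {R : ℕ},
    (∀ t ∈ l, t ∈ B) → l.length ≤ R → l.Sublist (List.replicate R B).flatten
  | [], _, _, _ => List.nil_sublist _
  | t :: l, 0, _, h => by simp at h
  | t :: l, R + 1, hB, h => by
    rw [List.replicate_succ, List.flatten_cons]
    exact (List.singleton_sublist.2 (hB t List.mem_cons_self)).append
      (sublist_flatten_replicate (fun u hu => hB u (List.mem_cons_of_mem _ hu)) (by simpa using h))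

theorem sublist_word {j : Irr L} {C : Cov S j} {l : List (Irr L × Bool)}
    (hl : ∀ t ∈ l, t.1 ∈ C.1) (hlen : l.length ≤ rounds S j) : l.Sublist (word S j C) := by
  refine sublist_flatten_replicate (fun t ht => ?_) hlen
  obtain ⟨e, b⟩ := t
  cases b <;> simp [block, hl _ ht]

end Vale.Agent.P183
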