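import Mathlib

/-!
P183: finite closed systems of equivalence relations give unary algebras with the same congruences.
-/

namespace Vale.Agent.P183

/-- A map preserving every member of a system of equivalence relations. -/
def Good {L V W : Type*} (Φ : L → Setoid V) (Ψ : L → Setoid W) (f : V → W) : Prop :=
  ∀ x a b, Φ x a b → Ψ x (f a) (f b)

theorem exists_fin_system {L : Type*} [Lattice L] [OrderBot L] {V : Type*} [Finite V] [Nonempty V]
    (Φ : L ↪o Setoid V)
    (hclosed : ∀ θ : Setoid V, Φ ⊥ ≤ θ →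
      (∀ f : V → V, Good Φ Φ f → ∀ a b, θ a b → θ (f a) (f b)) → ∃ x, θ = Φ x) :
    ∃ (n : ℕ) (F : Set (Fin n → Fin n)), 0 < n ∧
      Nonempty (L ≃o {s : Setoid (Fin n) // ∀ f ∈ F, ∀ a b, s a b → s (f a) (f b)}) := by
  classical
  let e : Quotient (Φ ⊥) ≃ Fin (Nat.card (Quotient (Φ ⊥))) := Finite.equivFin _
  let o : Fin (Nat.card (Quotient (Φ ⊥))) → V := fun a => (e.symm a).out
  let q : V → Fin (Nat.card (Quotient (Φ ⊥))) := fun v => e (Quotient.mk _ v)
  have hoq : ∀ v, Φ ⊥ (o (q v)) v := fun v => by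
    have : Quotient.mk (Φ ⊥) (o (q v)) = Quotient.mk (Φ ⊥) v := by simp [o, q]
    exact Quotient.exact this
  have hqo : ∀ a, q (o a) = a := fun a => by simp [o, q]
  have hbot : ∀ x v, Φ x (o (q v)) v := fun x v => Φ.monotone bot_le (hoq v)
  let Ψ : L → Setoid (Fin (Nat.card (Quotient (Φ ⊥)))) := fun x => Setoid.comap o (Φ x)
  let F : Set (Fin (Nat.card (Quotient (Φ ⊥))) → Fin (Nat.card (Quotient (Φ ⊥)))) :=
    {g | Good Ψ Ψ g}
  have hΨ : ∀ x, ∀ g ∈ F, ∀ a b, Ψ x a b → Ψ x (g a) (g b) := fun x g hg => hg x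
  let toSub : L → {s : Setoid (Fin (Nat.card (Quotient (Φ ⊥)))) //
      ∀ f ∈ F, ∀ a b, s a b → s (f a) (f b)} := fun x => ⟨Ψ x, hΨ x⟩
  have hmono : ∀ x y, toSub x ≤ toSub y ↔ x ≤ y := by
    intro x y
    refine ⟨fun h => Φ.le_iff_le.1 fun u v huv => ?_, fun h a b hab => Φ.monotone h hab⟩
    have h1 : Ψ x (q u) (q v) :=
      (Φ x).trans' (hbot x u) ((Φ x).trans' huv ((Φ x).symm' (hbot x v)))
    exact (Φ y).trans' ((Φ y).symm' (hbot y u)) ((Φ y).trans' (h h1) (hbot y v))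
  have : Nonempty (Quotient (Φ ⊥)) := Nonempty.map (Quotient.mk _) inferInstance
  refine ⟨_, F, Nat.card_pos, ⟨{
    toEquiv := Equiv.ofBijective toSub ⟨fun x y h => ?_, fun s => ?_⟩
    map_rel_iff' := fun {x y} => hmono x y }⟩⟩
  · exact le_antisymm ((hmono x y).1 h.le) ((hmono y x).1 h.ge)
  · obtain ⟨s, hs⟩ := s
    obtain ⟨x, hx⟩ := hclosed (Setoid.comap q s) (fun u v h => by
        change s (q u) (q v)
        rw [show q u = q v from congrArg e (Quotient.sound h)])
      (fun f hf a b hab => by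
        have hF : (fun c => q (f (o c))) ∈ F := fun x c d hcd =>
          (Φ x).trans' (hbot x (f (o c))) ((Φ x).trans' (hf x _ _ hcd) ((Φ x).symm' (hbot x (f (o d)))))
        have h1 := hs _ hF _ _ hab
        have hq : ∀ v, q (f (o (q v))) = q (f v) := fun v =>
          congrArg e (Quotient.sound (hf ⊥ _ _ (hoq v)))
        rwa [hq, hq] at h1)
    refine ⟨x, Subtype.ext (Setoid.ext fun a b => ?_)⟩
    change Φ x (o a) (o b) ↔ s a b
    rw [← hx]
    change s (q (o a)) (q (o b)) ↔ s a b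
    rw [hqo, hqo]

end Vale.Agent.P183
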