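import Vale.Agent.P183.Maps

/-!
P183: folding maps, and detection of every related pair by the roots.
-/

namespace Vale.Agent.P183

variable {L : Type*} [Lattice L] [OrderBot L] [Fintype L] (S : Frame L)

/-- Transport between equal labels. -/
def tr {c c' : Irr L} (h : c = c') : Pt S c → Pt S c' := fun u => h ▸ u

theorem good_tr {c c' : Irr L} (h : c = c') : Good (relSetoid S c) (relSetoid S c') (tr S h) := by
  subst h; exact fun _ _ _ h => h

theorem tr_root {c c' : Irr L} (h : c = c') (b : Bool) :
    tr S h (Pt.root c b) = Pt.root c' b := by subst h; rfl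

theorem rounds_ge_three (j : Irr L) : 3 ≤ rounds S j :=
  le_trans (by simp [roundBase]) (Nat.le_self_pow (by simp) (roundBase S))

theorem exists_pos_in_round {j : Irr L} (C : Cov S j) {e : Irr L} (he : e ∈ C.1) (b : Bool) {t : ℕ}
    (ht : t < rounds S j) :
    ∃ k : Fin (word S j C).length, (word S j C)[k] = (e, b) ∧ t * (block C.1).length ≤ k ∧
      (k : ℕ) < (t + 1) * (block C.1).length := by
  suffices main : ∀ (R : ℕ) (B : List (Irr L × Bool)) (a : Irr L × Bool), a ∈ B → ∀ t < R,
      ∃ k : Fin (List.replicate R B).flatten.length, (List.replicate R B).flatten[k] = a ∧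
        t * B.length ≤ k ∧ (k : ℕ) < (t + 1) * B.length from
    main (rounds S j) (block C.1) (e, b) (by cases b <;> simp [block, he]) t ht
  intro R B a ha
  induction R with
  | zero => exact fun t ht => absurd ht (Nat.not_lt_zero _)
  | succ R ih =>
    intro t ht
    cases t with
    | zero =>
      obtain ⟨k, hk, hka⟩ := List.getElem_of_mem ha
      refine ⟨⟨k, by simp [List.replicate_succ]; omega⟩, ?_, by simp, by simpa using hk⟩
      simp [List.replicate_succ, List.getElem_append_left hk, hka]
    | succ t =>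
      obtain ⟨k, hk, h1, h2⟩ := ih t (by omega)
      have hk2 := k.2
      refine ⟨⟨B.length + k, by simp [List.replicate_succ] at hk2 ⊢; omega⟩, ?_, ?_, ?_⟩
      · simpa [List.replicate_succ, List.getElem_append_right] using hk
      · simp only [add_mul, one_mul] at h1 h2 ⊢; omega
      · simp only [add_mul, one_mul] at h1 h2 ⊢; omega

/-- The folding of a path onto one copy: the data. -/
theorem exists_fold (j : Irr L) (hj : ¬ S.Core (j : L)) (C : Cov S j)
    (i l : Fin (word S j C).length) (hlab : ((word S j C)[l]).1 = ((word S j C)[i]).1)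
    (hor : ((word S j C)[l]).2 = !((word S j C)[i]).2) :
    ∃ (R : Pt S j → Pt S ((word S j C)[i]).1) (o : Bool),
      Good (relSetoid S j) (relSetoid S _) R ∧ (∀ u, R (Pt.deep j C i u) = u) ∧
      (∀ b, R (Pt.root j b) = Pt.root _ o) ∧
      (∀ C' k u, C' ≠ C → R (Pt.deep j C' k u) = Pt.root _ o) ∧
      (∀ k : Fin (word S j C).length, k ≠ i → k ≠ l → ∀ u, ∃ b, R (Pt.deep j C k u) = Pt.root _ b) ∧
      (∀ m, m ≤ (word S j C).length →
        R (node S j C m) = Pt.root _ (if ((i : ℕ) < m ↔ (l : ℕ) < m) then o else !o)) := by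
  classical
  have hil : i ≠ l := fun h => by subst h; simp at hor
  let c := ((word S j C)[i]).1
  let bi := ((word S j C)[i]).2
  let o : Bool := if (i : ℕ) < l then !bi else bi
  let val : ℕ → Bool := fun m => if ((i : ℕ) < m ↔ (l : ℕ) < m) then o else !o
  let R : Pt S j → Pt S c := fun u => match u with
    | .root _ _ => Pt.root c o
    | .core _ _ _ => Pt.root c o
    | .deep _ C' k x =>
      if hC : C' = C then
        if hi : (k : ℕ) = i then tr S (show ((word S j C')[k]).1 = c by
          subst hC; exact congrArg (fun t : Fin (word S j C').length => ((word S j C')[t]).1) (Fin.ext hi)) x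
        else if hl : (k : ℕ) = l then tr S (show ((word S j C')[k]).1 = c by
          subst hC; exact (congrArg (fun t : Fin (word S j C').length => ((word S j C')[t]).1) (Fin.ext hl)).trans hlab) x
        else Pt.root c (val k)
      else Pt.root c o
  have hR : ∀ (k : Fin (word S j C).length) (b : Bool), R (Pt.deep j C k (Pt.root _ b)) =
      Pt.root c (if (k : ℕ) = i then b else if (k : ℕ) = l then b else val k) := by
    intro k b
    simp only [R, dif_pos]
    split_ifs <;> simp [tr_root]
  have hsnd : ∀ k : Fin (word S j C).length, R (sndEnd S j C k) = Pt.root c (val (k + 1)) := by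
    intro k
    have e := hR k ((word S j C)[k]).2
    simp only [sndEnd]
    rw [e]
    congr 1
    split_ifs with h1 h2
    · obtain rfl : k = i := Fin.ext h1
      simp only [val, o, bi]
      rcases lt_or_gt_of_ne (Fin.val_ne_of_ne hil) with h | h
      · rw [if_neg (by omega), if_pos h, Bool.not_not]
      · rw [if_pos (by omega), if_neg (by omega)]
    · obtain rfl : k = l := Fin.ext h2
      rw [hor]
      simp only [val, o, bi]
      rcases lt_or_gt_of_ne (Fin.val_ne_of_ne hil) with h | h
      · rw [if_pos (by omega), if_pos h]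
      · rw [if_neg (by omega), if_neg (by omega)]
    · simp only [val]
      congr 1
      apply propext
      constructor <;> (intro h; constructor <;> intro h' <;> omega)
  have hnode : ∀ m, m ≤ (word S j C).length → R (node S j C m) = Pt.root c (val m) := by
    intro m hm
    cases m with
    | zero => simp [node, R, val]
    | succ m => simp only [node, dif_pos (Nat.lt_of_succ_le hm)]; exact hsnd ⟨m, Nat.lt_of_succ_le hm⟩
  have hout : ∀ C', C' ≠ C → ∀ m, R (node S j C' m) = Pt.root c o := by
    intro C' hC' m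
    cases m with
    | zero => rfl
    | succ m =>
      simp only [node]
      split
      · simp only [sndEnd, R, dif_neg hC']
      · rfl
  refine ⟨R, o, good_of_parts S _ (relSetoid_mono S c) j R (Rel.rfl' c _) (fun h => absurd h hj)
    (fun C' => ?_) (fun C' k => ?_), fun u => ?_, fun b => rfl, fun C' k u h => ?_,
    fun k h1 h2 u => ⟨val k, ?_⟩, hnode⟩
  · by_cases hC : C' = C
    · subst hC
      refine ⟨fun k => ?_, ?_⟩
      · rw [hnode _ k.2.le]
        have e := hR k (!((word S j C')[k]).2)
        simp only [fstEnd]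
        rw [e]
        have : val k = if (k : ℕ) = i then !((word S j C')[k]).2 else
            if (k : ℕ) = l then !((word S j C')[k]).2 else val k := by
          split_ifs with h1 h2
          · obtain rfl : k = i := Fin.ext h1
            simp only [val, o, bi]
            rcases lt_or_gt_of_ne (Fin.val_ne_of_ne hil) with h | h
            · rw [if_pos (by omega), if_pos h]
            · rw [if_neg (by omega), if_neg (by omega)]
          · obtain rfl : k = l := Fin.ext h2
            rw [hor]
            simp only [val, o, bi]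
            rcases lt_or_gt_of_ne (Fin.val_ne_of_ne hil) with h | h
            · rw [if_neg (by omega), if_pos h]
            · rw [if_pos (by omega), if_neg (by omega), Bool.not_not]
          · rfl
        rw [← this]
      · rw [hnode _ le_rfl]
        have : val (word S j C').length = o :=
          if_pos ⟨fun _ => l.2, fun _ => i.2⟩
        rw [this]
    · refine ⟨fun k => ?_, ?_⟩
      · rw [hout C' hC, fstEnd]
        simp only [R, dif_neg hC]
        exact Rel.rfl' c _
      · rw [hout C' hC]
  · simp only [R]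
    split_ifs
    · exact good_tr S _
    · exact good_tr S _
    · exact good_const _
    · exact good_const _
  · simp only [R, dif_pos]
    rfl
  · simp only [R, dif_neg h]
    rfl
  · simp only [R, dif_pos, dif_neg (Fin.val_ne_of_ne h1), dif_neg (Fin.val_ne_of_ne h2)]
    rfl

variable {S}

/-- A family of relations preserved by every good map. -/
structure Invariant (θ : ∀ j : Irr L, Setoid (Pt S j)) (x : L) : Prop where
  /-- Preserved. -/
  map : ∀ (c e : Irr L) (h : Pt S c → Pt S e), Good (relSetoid S c) (relSetoid S e) h →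
    ∀ u v, θ c u v → θ e (h u) (h v)
  /-- Above the standard relations. -/
  ge : ∀ (j : Irr L) (u v : Pt S j), Rel S x j u v → θ j u v
  /-- Roots detect. -/
  roots : ∀ j : Irr L, θ j (Pt.root j false) (Pt.root j true) → (j : L) ≤ x

variable {θ : ∀ j : Irr L, Setoid (Pt S j)} {x : L}

theorem Invariant.roots' (hθ : Invariant θ x) {c : Irr L} {b b' : Bool}
    (h : θ c (Pt.root c b) (Pt.root c b')) (hne : b ≠ b') : (c : L) ≤ x := by
  cases b <;> cases b'
  · exact absurd rfl hne
  · exact hθ.roots c h
  · exact hθ.roots c ((θ c).symm' h)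
  · exact absurd rfl hne

theorem rel_segment {j : Irr L} (C : Cov S j) :
    ∀ (d m : ℕ), m + d ≤ (word S j C).length →
      (∀ k : Fin (word S j C).length, m ≤ k → (k : ℕ) < m + d → (((word S j C)[k]).1 : L) ≤ x) →
      Rel S x j (node S j C m) (node S j C (m + d))
  | 0, m, _, _ => Rel.rfl' j _
  | d + 1, m, hm, hall => by
    refine Rel.trans j _ _ _ (rel_segment C d m (by omega) fun k h1 h2 => hall k h1 (by omega)) ?_
    have hlt : m + d < (word S j C).length := by omega
    refine Rel.trans j _ _ _ (Rel.glue j C ⟨m + d, hlt⟩) ?_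
    rw [show m + (d + 1) = (m + d) + 1 by omega]
    simp only [node, dif_pos hlt]
    refine Rel.deep j C ⟨m + d, hlt⟩ _ _ ?_
    have htop := Rel.top (S := S) (x := x) _
      (hall ⟨m + d, hlt⟩ (Nat.le_add_right _ _) (show m + d < m + (d + 1) by omega))
    cases ((word S j C)[(⟨m + d, hlt⟩ : Fin (word S j C).length)]).2
    · exact Rel.symm _ _ _ htop
    · exact htop

theorem Invariant.core (hθ : Invariant θ x) (j : Irr L) (hj : S.Core (j : L)) (u v : Pt S j)
    (huv : θ j u v) : Rel S x j u v := by
  classical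
  have hpt : ∀ w : Pt S j, ∃ z, Rel S ⊥ j w (Pt.core j hj z) := by
    intro w
    cases w with
    | root _ b =>
      cases b
      · exact ⟨_, Rel.left j hj⟩
      · exact ⟨_, Rel.right j hj⟩
    | core _ _ z => exact ⟨z, Rel.rfl' j _⟩
    | deep _ C => exact (core_no_cov S hj C).elim
  obtain ⟨u', hu⟩ := hpt u
  obtain ⟨v', hv⟩ := hpt v
  have hmove : ∀ (e : Irr L) (he : S.Core (e : L)) (g : Fin S.n → Fin S.n), Good S.Φ S.Φ g →
      ∃ h : Pt S j → Pt S e, Good (relSetoid S j) (relSetoid S e) h ∧
        ∀ z, h (Pt.core j hj z) = Pt.core e he (g z) := by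
    intro e he g hg
    let h : Pt S j → Pt S e := fun w => match w with
      | .root _ b => Pt.core e he (g (if b then S.q j else S.p j))
      | .core _ _ z => Pt.core e he (g z)
      | .deep _ _ _ _ => Pt.root e false
    refine ⟨h, good_of_parts S _ (relSetoid_mono S e) j h ?_
      (fun _ => ⟨fun y a b hab => Rel.base e he _ _ (hg y _ _ hab), Rel.rfl' e _, Rel.rfl' e _⟩)
      (fun C => (core_no_cov S hj C).elim) (fun C => (core_no_cov S hj C).elim), fun z => rfl⟩
    simp only [h, if_true, Bool.false_eq_true, if_false]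
    exact Rel.base e he _ _ (hg _ _ _ ((S.pair j hj _).2 le_rfl))
  let τ : Setoid (Fin S.n) := Setoid.comap (Pt.core j hj) (θ j)
  obtain ⟨y, hya, hy⟩ := S.closed τ fun g hg a b hab => by
    obtain ⟨h, hh, hz⟩ := hmove j hj g hg
    have := hθ.map j j h hh _ _ hab
    rw [hz, hz] at this
    exact this
  have hyx : y ≤ x := by
    obtain ⟨s, hs, hirr⟩ := hya
    rw [← hs]
    refine Finset.sup_le fun i hi => ?_
    have hiy : i ≤ y := hs ▸ Finset.le_sup (f := id) hi
    let e : Irr L := ⟨i, (hirr i hi).1⟩
    have hea : S.Core (e : L) := (hirr i hi).2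
    have h1 : τ (S.p e) (S.q e) := by rw [hy]; exact (S.pair e hea y).2 hiy
    obtain ⟨h, hh, hz⟩ := hmove e hea id fun _ _ _ h => h
    have h2 := hθ.map j e h hh _ _ h1
    rw [hz, hz] at h2
    exact hθ.roots e ((θ e).trans' (hθ.ge e _ _ (Rel.left e hea))
      ((θ e).trans' h2 (hθ.ge e _ _ (Rel.symm e _ _ (Rel.right e hea)))))
  have h3 : τ u' v' := (θ j).trans' (hθ.ge j _ _ (rel_mono S bot_le (Rel.symm j _ _ hu)))
    ((θ j).trans' huv (hθ.ge j _ _ (rel_mono S bot_le hv)))
  rw [hy] at h3
  exact Rel.trans j _ _ _ (rel_mono S bot_le hu) (Rel.trans j _ _ _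
    (Rel.base j hj _ _ (S.mono hyx h3)) (rel_mono S bot_le (Rel.symm j _ _ hv)))

theorem Invariant.deep_cases (hθ : Invariant θ x) {j : Irr L} (hj : ¬ S.Core (j : L))
    (ih : ∀ c, rho S c < rho S j → ∀ u v, θ c u v → Rel S x c u v)
    (C : Cov S j) (i : Fin (word S j C).length) (u : Pt S ((word S j C)[i]).1) (w : Pt S j)
    (h : θ j (Pt.deep j C i u) w) :
    Rel S x j (Pt.deep j C i u) w ∨
      ∃ m, m ≤ (word S j C).length ∧ Rel S x j (Pt.deep j C i u) (node S j C m) := by
  classical
  have hc : ((word S j C)[i]).1 ∈ C.1 := mem_of_mem_word S (List.getElem_mem i.2)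
  have hend : ∀ b, ∃ m, m ≤ (word S j C).length ∧
      Rel S x j (Pt.deep j C i (Pt.root _ b)) (node S j C m) := by
    intro b
    by_cases hb : b = ((word S j C)[i]).2
    · refine ⟨(i : ℕ) + 1, i.2, ?_⟩
      simp only [node, dif_pos i.2, sndEnd, hb]
      exact Rel.rfl' j _
    · refine ⟨i, i.2.le, ?_⟩
      have : b = !((word S j C)[i]).2 := by
        cases b <;> cases hb' : ((word S j C)[i]).2 <;> simp_all
      subst this
      exact Rel.symm j _ _ (Rel.glue j C i)
  have hmain : ∀ (l : Fin (word S j C).length) (R : Pt S j → Pt S ((word S j C)[i]).1),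
      Good (relSetoid S j) (relSetoid S _) R → R (Pt.deep j C i u) = u →
      (∃ b, R w = Pt.root _ b) →
      ∃ m, m ≤ (word S j C).length ∧ Rel S x j (Pt.deep j C i u) (node S j C m) := by
    intro l R hR hu ⟨b, hb⟩
    have := hθ.map j _ R hR _ _ h
    rw [hu, hb] at this
    obtain ⟨m, hm, hrel⟩ := hend b
    exact ⟨m, hm, Rel.trans j _ _ _ (Rel.deep j C i _ _ (ih _ (C.2.2.2.1 _ hc) _ _ this)) hrel⟩
  have hR3 := rounds_ge_three S j
  cases w with
  | root _ b =>
    obtain ⟨l, hl, -⟩ := exists_pos_in_round S C hc (!((word S j C)[i]).2) (t := 0) (by omega)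
    obtain ⟨R, o, hR, hu, hroot, -⟩ := exists_fold S j hj C i l (congrArg Prod.fst hl :)
      (congrArg Prod.snd hl :)
    exact Or.inr (hmain l R hR (hu u) ⟨o, hroot b⟩)
  | core _ h' => exact absurd h' hj
  | deep _ C' k v =>
    by_cases hC : C' = C
    · subst hC
      by_cases hk : k = i
      · subst hk
        obtain ⟨l, hl, -⟩ := exists_pos_in_round S C' hc (!((word S j C')[k]).2) (t := 0) (by omega)
        obtain ⟨R, o, hR, hu, -⟩ := exists_fold S j hj C' k l (congrArg Prod.fst hl :)
          (congrArg Prod.snd hl :)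
        have := hθ.map j _ R hR _ _ h
        rw [hu, hu] at this
        exact Or.inl (Rel.deep j C' k _ _ (ih _ (C'.2.2.2.1 _ hc) _ _ this))
      · obtain ⟨l, hl, hlk⟩ : ∃ l, (word S j C')[l] =
            (((word S j C')[i]).1, !((word S j C')[i]).2) ∧ k ≠ l := by
          obtain ⟨l, hl, -, hl2⟩ := exists_pos_in_round S C' hc (!((word S j C')[i]).2) (t := 0)
            (by omega)
          obtain ⟨l', hl', hl3, -⟩ := exists_pos_in_round S C' hc (!((word S j C')[i]).2) (t := 1)
            (by omega)
          by_cases hkl : k = l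
          · exact ⟨l', hl', fun h' => by
              have := congrArg Fin.val (hkl.symm.trans h'); omega⟩
          · exact ⟨l, hl, hkl⟩
        obtain ⟨R, o, hR, hu, -, -, hother, -⟩ := exists_fold S j hj C' i l (congrArg Prod.fst hl :)
          (congrArg Prod.snd hl :)
        exact Or.inr (hmain l R hR (hu u) (hother k hk hlk v))
    · obtain ⟨l, hl, -⟩ := exists_pos_in_round S C hc (!((word S j C)[i]).2) (t := 0) (by omega)
      obtain ⟨R, o, hR, hu, -, hout, -⟩ := exists_fold S j hj C i l (congrArg Prod.fst hl :)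
        (congrArg Prod.snd hl :)
      exact Or.inr (hmain l R hR (hu u) ⟨o, hout C' k v hC⟩)

theorem Invariant.side (hθ : Invariant θ x) {j : Irr L} (hj : ¬ S.Core (j : L)) (C : Cov S j)
    (i l : Fin (word S j C).length)
    (hl : (word S j C)[l] = (((word S j C)[i]).1, !((word S j C)[i]).2))
    (hmiss : ¬ (((word S j C)[i]).1 : L) ≤ x) {m : ℕ} (hm : m ≤ (word S j C).length) (w : Pt S j)
    (h : θ j (node S j C m) w) :
    ((∃ b, w = Pt.root j b) ∨ (∃ C' k, C' ≠ C ∧ w = node S j C' k) →
        ((i : ℕ) < m ↔ (l : ℕ) < m)) ∧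
      ∀ m', m' ≤ (word S j C).length → w = node S j C m' →
        (((i : ℕ) < m ↔ (l : ℕ) < m) ↔ ((i : ℕ) < m' ↔ (l : ℕ) < m')) := by
  classical
  obtain ⟨R, o, hR, -, hroot, hout, -, hnode⟩ :=
    exists_fold S j hj C i l (congrArg Prod.fst hl :) (congrArg Prod.snd hl :)
  have h1 := hθ.map j _ R hR _ _ h
  rw [hnode m hm] at h1
  refine ⟨fun hw => ?_, fun m' hm' hw => ?_⟩
  · have h2 : R w = Pt.root _ o := by
      rcases hw with ⟨b, rfl⟩ | ⟨C', k, hC, rfl⟩
      · exact hroot b
      · cases k with
        | zero => exact hroot _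
        | succ k =>
          simp only [node]
          split
          · exact hout _ _ _ hC
          · exact hroot _
    rw [h2] at h1
    by_contra hne
    rw [if_neg hne] at h1
    exact hmiss (hθ.roots' h1 (by simp))
  · subst hw
    rw [hnode m' hm'] at h1
    by_contra hne
    refine hmiss (hθ.roots' h1 ?_)
    split_ifs <;> simp_all

theorem Invariant.node_cases (hθ : Invariant θ x) {j : Irr L} (hj : ¬ S.Core (j : L)) (C : Cov S j)
    {m : ℕ} (hm : m ≤ (word S j C).length) :
    (∃ b, Rel S x j (node S j C m) (Pt.root j b)) ∨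
      ∀ w : Pt S j, (∃ b, w = Pt.root j b) ∨ (∃ C' k, C' ≠ C ∧ w = node S j C' k) →
        ¬ θ j (node S j C m) w := by
  classical
  by_cases hleft : ∀ k : Fin (word S j C).length, (k : ℕ) < m → (((word S j C)[k]).1 : L) ≤ x
  · left
    refine ⟨false, Rel.symm j _ _ ?_⟩
    have := rel_segment (x := x) C m 0 (by omega) fun k _ h => hleft k (by omega)
    simpa [node] using this
  by_cases hright : ∀ k : Fin (word S j C).length, m ≤ k → (((word S j C)[k]).1 : L) ≤ x
  · left
    refine ⟨true, ?_⟩
    have := rel_segment (x := x) C ((word S j C).length - m) m (by omega) fun k h _ => hright k h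
    rw [show m + ((word S j C).length - m) = (word S j C).length by omega] at this
    exact Rel.trans j _ _ _ this (Rel.last j C)
  push Not at hleft hright
  obtain ⟨d, hd, hdx⟩ := hleft
  obtain ⟨d', hd', hdx'⟩ := hright
  refine Or.inr fun w hw hθw => ?_
  set B := (block C.1).length with hBdef
  have hlen : (word S j C).length = rounds S j * B := by simp [word, B]
  have hR3 := rounds_ge_three S j
  by_cases hlast : ∃ t, t < rounds S j ∧ m ≤ t * B
  · obtain ⟨t, ht, hmt⟩ := hlast
    obtain ⟨l, hl, hl1, -⟩ := exists_pos_in_round S C (mem_of_mem_word S (List.getElem_mem d.2))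
      (!((word S j C)[d]).2) ht
    rw [← hBdef] at hl1
    have := ((hθ.side hj C d l hl hdx hm w hθw).1 hw).1 hd
    omega
  · obtain ⟨l, hl, -, hl2⟩ := exists_pos_in_round S C (mem_of_mem_word S (List.getElem_mem d'.2))
      (!((word S j C)[d']).2) (t := 0) (by omega)
    push Not at hlast
    have h1 : 1 * B < m := hlast 1 (by omega)
    have := ((hθ.side hj C d' l hl hdx' hm w hθw).1 hw).2 (by simp only [B] at h1; omega)
    omega

theorem Invariant.same_path (hθ : Invariant θ x) {j : Irr L} (hj : ¬ S.Core (j : L)) (C : Cov S j)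
    {m m' : ℕ} (hmm : m ≤ m') (hm' : m' ≤ (word S j C).length)
    (hno : ¬ ∃ b, Rel S x j (node S j C m) (Pt.root j b))
    (h : θ j (node S j C m) (node S j C m')) : Rel S x j (node S j C m) (node S j C m') := by
  classical
  by_cases hall : ∀ k : Fin (word S j C).length, m ≤ k → (k : ℕ) < m' →
      (((word S j C)[k]).1 : L) ≤ x
  · have := rel_segment (x := x) C (m' - m) m (by omega) fun k h1 h2 => hall k h1 (by omega)
    rwa [show m + (m' - m) = m' by omega] at this
  exfalso
  push Not at hall
  obtain ⟨i, hi1, hi2, hix⟩ := hall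
  set B := (block C.1).length with hBdef
  have hlen : (word S j C).length = rounds S j * B := by simp [word, B]
  have hR3 := rounds_ge_three S j
  have hsmall : m ≤ (word S j C).length := hmm.trans hm'
  have hsplit : (rounds S j - 1) * B + B = rounds S j * B := by
    rw [← Nat.succ_mul, Nat.succ_eq_add_one, Nat.sub_add_cancel (by omega)]
  by_cases hB : B ≤ m
  · obtain ⟨l, hl, -, hl2⟩ := exists_pos_in_round S C (mem_of_mem_word S (List.getElem_mem i.2))
      (!((word S j C)[i]).2) (t := 0) (by omega)
    have := (hθ.side hj C i l hl hix hsmall _ h).2 m' hm' rfl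
    simp only [zero_add, one_mul] at hl2
    simp [show (l : ℕ) < m by omega, show ¬ (i : ℕ) < m by omega, show (l : ℕ) < m' by omega,
      hi2] at this
  by_cases hB' : m' ≤ (rounds S j - 1) * B
  · obtain ⟨l, hl, hl1, -⟩ := exists_pos_in_round S C (mem_of_mem_word S (List.getElem_mem i.2))
      (!((word S j C)[i]).2) (t := rounds S j - 1) (by omega)
    rw [← hBdef] at hl1
    have := (hθ.side hj C i l hl hix hsmall _ h).2 m' hm' rfl
    simp [show ¬ (l : ℕ) < m by omega, show ¬ (i : ℕ) < m by omega, show ¬ (l : ℕ) < m' by omega,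
      hi2] at this
  obtain ⟨d, hd, hdx⟩ : ∃ d : Fin (word S j C).length, (d : ℕ) < m ∧
      ¬ (((word S j C)[d]).1 : L) ≤ x := by
    by_contra hne
    push Not at hne
    refine hno ⟨false, Rel.symm j _ _ ?_⟩
    have := rel_segment (x := x) C m 0 (by omega) fun k _ hk => hne k (by omega)
    simpa [node] using this
  obtain ⟨l, hl, hl1, hl2⟩ := exists_pos_in_round S C (mem_of_mem_word S (List.getElem_mem d.2))
    (!((word S j C)[d]).2) (t := 1) (by omega)
  have := (hθ.side hj C d l hl hdx hsmall _ h).2 m' hm' rfl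
  have h2B : 2 * B ≤ (rounds S j - 1) * B := Nat.mul_le_mul_right B (by omega)
  simp only [one_mul, Nat.reduceAdd] at hl1 hl2
  simp [show ¬ (l : ℕ) < m by omega, hd, show (l : ℕ) < m' by omega,
    show (d : ℕ) < m' by omega] at this

theorem Invariant.detect (hθ : Invariant θ x) : ∀ (j : Irr L) (u v : Pt S j), θ j u v →
    Rel S x j u v := by
  classical
  suffices main : ∀ (k : ℕ) (j : Irr L), rho S j < k → ∀ u v, θ j u v → Rel S x j u v from
    fun j => main _ j (Nat.lt_succ_self _)
  intro k
  induction k with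
  | zero => exact fun j h => absurd h (Nat.not_lt_zero _)
  | succ k ih =>
    intro j hjk u v huv
    by_cases hj : S.Core (j : L)
    · exact hθ.core j hj u v huv
    have ih' : ∀ c, rho S c < rho S j → ∀ u v, θ c u v → Rel S x c u v := fun c hc =>
      ih c (lt_of_lt_of_le hc (Nat.lt_succ_iff.1 hjk))
    let NodeLike : Pt S j → Prop := fun w =>
      (∃ b, w = Pt.root j b) ∨ ∃ C m, m ≤ (word S j C).length ∧ w = node S j C m
    have hred : ∀ a b, θ j a b → Rel S x j a b ∨ ∃ a', NodeLike a' ∧ Rel S x j a a' := by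
      intro a b hab
      cases a with
      | root _ c => exact Or.inr ⟨_, Or.inl ⟨c, rfl⟩, Rel.rfl' j _⟩
      | core _ h => exact absurd h hj
      | deep _ C i w =>
        rcases hθ.deep_cases hj ih' C i w b hab with h | ⟨m, hm, h⟩
        · exact Or.inl h
        · exact Or.inr ⟨_, Or.inr ⟨C, m, hm, rfl⟩, h⟩
    rcases hred u v huv with h | ⟨u', hu', hru⟩
    · exact h
    have huv' : θ j u' v := (θ j).trans' (hθ.ge j _ _ (Rel.symm j _ _ hru)) huv
    rcases hred v u' ((θ j).symm' huv') with h | ⟨v', hv', hrv⟩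
    · exact Rel.trans j _ _ _ hru (Rel.symm j _ _ h)
    have h0 : θ j u' v' := (θ j).trans' huv' (hθ.ge j _ _ hrv)
    suffices Rel S x j u' v' from
      Rel.trans j _ _ _ hru (Rel.trans j _ _ _ this (Rel.symm j _ _ hrv))
    have hroots : ∀ b b', θ j (Pt.root j b) (Pt.root j b') →
        Rel S x j (Pt.root j b) (Pt.root j b') := by
      intro b b' h
      by_cases hb : b = b'
      · subst hb; exact Rel.rfl' j _
      · have := Rel.top (S := S) j (hθ.roots' h hb)
        cases b <;> cases b'
        · exact absurd rfl hb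
        · exact this
        · exact Rel.symm j _ _ this
        · exact absurd rfl hb
    have hfix : ∀ a b, NodeLike a → NodeLike b → θ j a b →
        (∃ c, Rel S x j a (Pt.root j c)) → Rel S x j a b := by
      intro a b _ hb hab ⟨c, hc⟩
      have hcb : θ j (Pt.root j c) b := (θ j).trans' (hθ.ge j _ _ (Rel.symm j _ _ hc)) hab
      refine Rel.trans j _ _ _ hc ?_
      rcases hb with ⟨b', rfl⟩ | ⟨C, m, hm, rfl⟩
      · exact hroots c b' hcb
      · rcases hθ.node_cases hj C hm with ⟨b', hb'⟩ | hno
        · exact Rel.trans j _ _ _ (hroots c b' ((θ j).trans' hcb (hθ.ge j _ _ hb')))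
            (Rel.symm j _ _ hb')
        · exact absurd ((θ j).symm' hcb) (hno _ (Or.inl ⟨c, rfl⟩))
    rcases hu' with ⟨b, rfl⟩ | ⟨C, m, hm, rfl⟩
    · exact hfix _ _ (Or.inl ⟨b, rfl⟩) hv' h0 ⟨b, Rel.rfl' j _⟩
    rcases hθ.node_cases hj C hm with hr | hno
    · exact hfix _ _ (Or.inr ⟨C, m, hm, rfl⟩) hv' h0 hr
    rcases hv' with ⟨b, rfl⟩ | ⟨C', m', hm', rfl⟩
    · exact absurd h0 (hno _ (Or.inl ⟨b, rfl⟩))
    by_cases hC : C' = C
    · subst hC
      have hnr : ∀ {n : ℕ} (hn : n ≤ (word S j C').length),
          θ j (node S j C' m) (node S j C' n) → ¬ ∃ b, Rel S x j (node S j C' n) (Pt.root j b) :=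
        fun hn h ⟨b, hb⟩ => hno _ (Or.inl ⟨b, rfl⟩) ((θ j).trans' h (hθ.ge j _ _ hb))
      rcases le_total m m' with h | h
      · exact hθ.same_path hj C' h hm' (hnr hm ((θ j).refl' _)) h0
      · exact Rel.symm j _ _ (hθ.same_path hj C' h hm (hnr hm' h0) ((θ j).symm' h0))
    · exact absurd h0 (hno _ (Or.inr ⟨C', m', hC, rfl⟩))

end Vale.Agent.P183
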