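import Vale.Agent.P183.Closed

/-!
P183: the dual of a representable lattice is representable (Kurzweil, Netter).
-/

namespace Vale.Agent.P183

variable {A S : Type*} [Group S] [IsSimpleGroup S]

theorem exists_mem_eq_of_separated (H : Subgroup (A → S)) (hD : ∀ s : S, (fun _ => s) ∈ H)
    (hS : ∃ s t : S, s * t ≠ t * s) (a : A) :
    ∀ B : Finset A, (∀ b ∈ B, ∃ h ∈ H, h a ≠ h b) →
      ∀ s : S, ∃ h ∈ H, h a = s ∧ ∀ b ∈ B, h b = 1 := by
  classical
  intro B
  induction B using Finset.induction_on with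
  | empty => exact fun _ s => ⟨fun _ => s, hD s, rfl, by simp⟩
  | insert b B _ ih =>
    intro hsep
    have hrec := ih fun c hc => hsep c (Finset.mem_insert_of_mem hc)
    have hone : ∀ t : S, ∃ h ∈ H, h a = t ∧ h b = 1 := by
      let K : Subgroup S :=
        { carrier := {t | ∃ h ∈ H, h a = t ∧ h b = 1}
          one_mem' := ⟨1, H.one_mem, rfl, rfl⟩
          mul_mem' := fun ⟨h, hh, h1, h2⟩ ⟨k, hk, k1, k2⟩ =>
            ⟨h * k, H.mul_mem hh hk, by simp [h1, k1], by simp [h2, k2]⟩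
          inv_mem' := fun ⟨h, hh, h1, h2⟩ => ⟨h⁻¹, H.inv_mem hh, by simp [h1], by simp [h2]⟩ }
      have hK : K.Normal := ⟨fun t ⟨h, hh, h1, h2⟩ g => ⟨(fun _ => g) * h * (fun _ => g)⁻¹,
        H.mul_mem (H.mul_mem (hD g) hh) (H.inv_mem (hD g)), by simp [h1], by simp [h2]⟩⟩
      obtain ⟨h, hh, hne⟩ := hsep b (Finset.mem_insert_self b B)
      have hmem : h a * (h b)⁻¹ ∈ K :=
        ⟨h * (fun _ => h b)⁻¹, H.mul_mem hh (H.inv_mem (hD _)), by simp, by simp⟩
      rcases hK.eq_bot_or_eq_top with h0 | h1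
      · rw [h0, Subgroup.mem_bot, mul_inv_eq_one] at hmem
        exact absurd hmem hne
      · exact fun t => (show t ∈ K by simp [h1])
    let T : Subgroup S :=
      { carrier := {t | ∃ h ∈ H, h a = t ∧ ∀ c ∈ insert b B, h c = 1}
        one_mem' := ⟨1, H.one_mem, rfl, fun _ _ => rfl⟩
        mul_mem' := fun ⟨h, hh, h1, h2⟩ ⟨k, hk, k1, k2⟩ =>
          ⟨h * k, H.mul_mem hh hk, by simp [h1, k1], fun c hc => by simp [h2 c hc, k2 c hc]⟩
        inv_mem' := fun ⟨h, hh, h1, h2⟩ =>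
          ⟨h⁻¹, H.inv_mem hh, by simp [h1], fun c hc => by simp [h2 c hc]⟩ }
    have hT : T.Normal := ⟨fun t ⟨h, hh, h1, h2⟩ g => ⟨(fun _ => g) * h * (fun _ => g)⁻¹,
      H.mul_mem (H.mul_mem (hD g) hh) (H.inv_mem (hD g)), by simp [h1],
      fun c hc => by simp [h2 c hc]⟩⟩
    obtain ⟨s₀, t₀, hst⟩ := hS
    obtain ⟨h, hh, h1, h2⟩ := hrec s₀
    obtain ⟨k, hk, k1, k2⟩ := hone t₀
    have hmem : s₀ * t₀ * s₀⁻¹ * t₀⁻¹ ∈ T :=
      ⟨h * k * h⁻¹ * k⁻¹, H.mul_mem (H.mul_mem (H.mul_mem hh hk) (H.inv_mem hh)) (H.inv_mem hk),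
        by simp [h1, k1], fun c hc => by
          rcases Finset.mem_insert.1 hc with rfl | hc
          · simp [k2]
          · simp [h2 c hc]⟩
    rcases hT.eq_bot_or_eq_top with h0 | h1'
    · rw [h0, Subgroup.mem_bot, mul_inv_eq_one, mul_inv_eq_iff_eq_mul] at hmem
      exact absurd hmem hst
    · exact fun t => (show t ∈ T by simp [h1'])

theorem mem_of_compatible [Finite A] (H : Subgroup (A → S)) (hD : ∀ s : S, (fun _ => s) ∈ H)
    (hS : ∃ s t : S, s * t ≠ t * s) (x : A → S)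
    (hx : ∀ a b, (∀ h ∈ H, h a = h b) → x a = x b) : x ∈ H := by
  classical
  cases nonempty_fintype A
  suffices main : ∀ B : Finset A, ∃ h ∈ H, ∀ b ∈ B, h b = x b by
    obtain ⟨h, hh, he⟩ := main Finset.univ
    rwa [show x = h from funext fun a => (he a (Finset.mem_univ a)).symm]
  intro B
  induction B using Finset.induction_on with
  | empty => exact ⟨1, H.one_mem, by simp⟩
  | insert a B _ ih =>
    obtain ⟨h, hh, he⟩ := ih
    by_cases hsep : ∀ b ∈ B, ∃ g ∈ H, g a ≠ g b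
    · obtain ⟨k, hk, k1, k2⟩ := exists_mem_eq_of_separated H hD hS a B hsep ((h a)⁻¹ * x a)
      refine ⟨h * k, H.mul_mem hh hk, fun c hc => ?_⟩
      rcases Finset.mem_insert.1 hc with rfl | hc
      · simp [k1]
      · simp [he c hc, k2 c hc]
    · push Not at hsep
      obtain ⟨b, hb, hab⟩ := hsep
      refine ⟨h, hh, fun c hc => ?_⟩
      rcases Finset.mem_insert.1 hc with rfl | hc
      · rw [hab h hh, he b hb, hx c b fun g hg => hab g hg]
      · exact he c hc

/-- Kurzweil and Netter: duals of representable lattices are representable. -/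
theorem representable_dual {L : Type*} [Lattice L] [BoundedOrder L]
    (hrep : ∃ (n : ℕ) (F : Set (Fin n → Fin n)), 0 < n ∧
      Nonempty (L ≃o {s : Setoid (Fin n) // ∀ f ∈ F, ∀ x y, s x y → s (f x) (f y)})) :
    ∃ (n : ℕ) (F : Set (Fin n → Fin n)), 0 < n ∧
      Nonempty (Lᵒᵈ ≃o {s : Setoid (Fin n) // ∀ f ∈ F, ∀ x y, s x y → s (f x) (f y)}) := by
  classical
  obtain ⟨n, F, -, ⟨ι⟩⟩ := hrep
  let G := alternatingGroup (Fin 5)
  have : IsSimpleGroup G := inferInstanceAs (IsSimpleGroup (alternatingGroup (Fin 5)))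
  have hG : ∃ s t : G, s * t ≠ t * s := by
    refine ⟨⟨Equiv.swap 0 1 * Equiv.swap 1 2, by simp [G]⟩,
      ⟨Equiv.swap 1 2 * Equiv.swap 2 3, by simp [G]⟩, fun h => ?_⟩
    have := congrArg (fun g : G => (g : Equiv.Perm (Fin 5)) 0) h
    simp [G, Equiv.swap_apply_def] at this
  let Ψ : Lᵒᵈ → Setoid (Fin n → G) := fun y =>
    { r := fun u v => ∀ a b, (ι (OrderDual.ofDual y)).1 a b →
        (u a)⁻¹ * v a = (u b)⁻¹ * v b
      iseqv :=
        { refl := fun u a b _ => by simp
          symm := fun {u v} h a b hab => by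
            have := congrArg Inv.inv (h a b hab)
            simpa using this
          trans := fun {u v w} h h' a b hab => by
            have := congrArg₂ (· * ·) (h a b hab) (h' a b hab)
            simpa [mul_assoc] using this } }
  have hle : ∀ y z : Lᵒᵈ, Ψ y ≤ Ψ z ↔ y ≤ z := by
    refine fun y z => ⟨fun h => ?_, fun h u v huv a b hab => huv a b (ι.monotone h hab)⟩
    by_contra hne
    have hne' : ¬ (ι (OrderDual.ofDual z)).1 ≤ (ι (OrderDual.ofDual y)).1 := fun h' =>
      hne (ι.le_iff_le.1 h' : OrderDual.ofDual z ≤ OrderDual.ofDual y)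
    obtain ⟨a, b, hab, hnab⟩ : ∃ a b, (ι (OrderDual.ofDual z)).1 a b ∧
        ¬ (ι (OrderDual.ofDual y)).1 a b := by
      by_contra hcon
      push Not at hcon
      exact hne' fun a b hab => hcon a b hab
    obtain ⟨g, hg⟩ := exists_ne (1 : G)
    have h1 : Ψ y 1 (fun c => if (ι (OrderDual.ofDual y)).1 a c then g else 1) := by
      intro c d hcd
      have : (ι (OrderDual.ofDual y)).1 a c ↔ (ι (OrderDual.ofDual y)).1 a d :=
        ⟨fun h' => Setoid.trans' _ h' hcd, fun h' => Setoid.trans' _ h' (Setoid.symm' _ hcd)⟩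
      simp [this]
    have h2 := h h1 a b hab
    simp [hnab, hg] at h2
  refine exists_fin_system (OrderEmbedding.ofMapLEIff Ψ hle) fun Θ hΘ hinv => ?_
  have hmul : ∀ g u v, Θ u v → Θ (g * u) (g * v) := fun g u v h =>
    hinv (fun w => g * w) (fun z u v huv a b hab => by
      simpa [mul_assoc] using huv a b hab) u v h
  let H : Subgroup (Fin n → G) :=
    { carrier := {h | Θ 1 h}
      one_mem' := Θ.refl' 1
      mul_mem' := fun {h k} hh hk => Θ.trans' hh (by simpa using hmul h 1 k hk)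
      inv_mem' := fun {h} hh => Θ.symm' (by simpa using hmul h⁻¹ 1 h hh) }
  have hD : ∀ s : G, (fun _ => s) ∈ H := fun s => hΘ (fun a b _ => by simp)
  let θ : Setoid (Fin n) :=
    { r := fun a b => ∀ h ∈ H, h a = h b
      iseqv :=
        { refl := fun a h _ => rfl
          symm := fun h g hg => (h g hg).symm
          trans := fun h h' g hg => (h g hg).trans (h' g hg) } }
  have hθF : ∀ f ∈ F, ∀ a b, θ a b → θ (f a) (f b) := fun f hf a b hab h hh =>
    hab (h ∘ f) (hinv (fun w => w ∘ f) (fun z u v huv c d hcd =>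
      huv (f c) (f d) ((ι (OrderDual.ofDual z)).2 f hf c d hcd)) 1 h hh)
  refine ⟨OrderDual.toDual (ι.symm ⟨θ, hθF⟩), Setoid.ext fun u v => ?_⟩
  change Θ u v ↔ ∀ a b, (ι (ι.symm ⟨θ, hθF⟩)).1 a b → (u a)⁻¹ * v a = (u b)⁻¹ * v b
  rw [OrderIso.apply_symm_apply]
  constructor
  · intro h a b hab
    have : u⁻¹ * v ∈ H := by
      change Θ 1 (u⁻¹ * v)
      simpa using hmul u⁻¹ u v h
    simpa using hab _ this
  · intro h
    have : u⁻¹ * v ∈ H := mem_of_compatible H hD hG _ fun a b hab => by simpa using h a b hab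
    simpa using hmul u 1 _ this

end Vale.Agent.P183
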