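import Vale.Agent.P183.Detect

/-!
P183: the algebra on all the paths, glued at one point, has the given lattice of congruences.
-/

namespace Vale.Agent.P183

variable {L : Type*} [Lattice L] [OrderBot L] [Fintype L] (S : Frame L)

theorem exists_core_map (e j : Irr L) (he : S.Core (e : L)) (hj : S.Core (j : L))
    (g : Fin S.n → Fin S.n) (hg : Good S.Φ S.Φ g) :
    ∃ h : Pt S e → Pt S j, Good (relSetoid S e) (relSetoid S j) h ∧
      (∀ z, h (Pt.core e he z) = Pt.core j hj (g z)) ∧
      h (Pt.root e false) = Pt.core j hj (g (S.p e)) ∧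
      h (Pt.root e true) = Pt.core j hj (g (S.q e)) := by
  let h : Pt S e → Pt S j := fun w => match w with
    | .root _ b => Pt.core j hj (g (if b then S.q e else S.p e))
    | .core _ _ z => Pt.core j hj (g z)
    | .deep _ _ _ _ => Pt.root j false
  refine ⟨h, good_of_parts S _ (relSetoid_mono S j) e h ?_
    (fun _ => ⟨fun z a b hab => Rel.base j hj _ _ (hg z _ _ hab), Rel.rfl' j _, Rel.rfl' j _⟩)
    (fun C => (core_no_cov S he C).elim) (fun C => (core_no_cov S he C).elim),
    fun _ => rfl, rfl, rfl⟩
  simp only [h, if_true, Bool.false_eq_true, if_false]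
  exact Rel.base j hj _ _ (hg _ _ _ ((S.pair e he _).2 le_rfl))

/-- All the points. -/
abbrev Total : Type _ := Option (Σ j : Irr L, Pt S j)

/-- The relations on all the points. -/
inductive TRel (x : L) : Total S → Total S → Prop
  | rfl' (u) : TRel x u u
  | symm (u v) : TRel x u v → TRel x v u
  | trans (u v w) : TRel x u v → TRel x v w → TRel x u w
  | base (j : Irr L) : TRel x none (some ⟨j, Pt.root j false⟩)
  | lift (j : Irr L) (u v : Pt S j) : Rel S x j u v → TRel x (some ⟨j, u⟩) (some ⟨j, v⟩)

/-- The system on all the points. -/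
def totalSetoid (x : L) : Setoid (Total S) where
  r := TRel S x
  iseqv := ⟨TRel.rfl', fun h => TRel.symm _ _ h, fun h h' => TRel.trans _ _ _ h h'⟩

theorem totalSetoid_mono : Monotone (totalSetoid S) := by
  intro x y hxy u v h
  change TRel S x u v at h
  change TRel S y u v
  induction h with
  | rfl' u => exact TRel.rfl' u
  | symm u v _ ih => exact TRel.symm u v ih
  | trans u v w _ _ ih ih' => exact TRel.trans u v w ih ih'
  | base j => exact TRel.base j
  | lift j u v h => exact TRel.lift j u v (rel_mono S hxy h)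

theorem good_total {T : Type*} (Ψ : L → Setoid T) (hΨ : Monotone Ψ) (h : Total S → T)
    (hbase : ∀ j, Ψ ⊥ (h none) (h (some ⟨j, Pt.root j false⟩)))
    (hlift : ∀ j, Good (relSetoid S j) Ψ fun u => h (some ⟨j, u⟩)) :
    Good (totalSetoid S) Ψ h := by
  intro x u v huv
  change TRel S x u v at huv
  induction huv with
  | rfl' u => exact (Ψ x).refl' _
  | symm u v _ ih => exact (Ψ x).symm' ih
  | trans u v w _ _ ih ih' => exact (Ψ x).trans' ih ih'
  | base j => exact hΨ bot_le (hbase j)
  | lift j u v h => exact hlift j x u v h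

theorem exists_extend {T : Type*} (Ψ : L → Setoid T) (hΨ : Monotone Ψ) (c : Irr L) (g : Pt S c → T)
    (hg : Good (relSetoid S c) Ψ g) :
    ∃ H : Total S → T, Good (totalSetoid S) Ψ H ∧ (∀ u, H (some ⟨c, u⟩) = g u) ∧
      H none = g (Pt.root c false) ∧
      ∀ e u, e ≠ c → H (some ⟨e, u⟩) = g (Pt.root c false) := by
  classical
  let H : Total S → T := fun w => match w with
    | none => g (Pt.root c false)
    | some ⟨e, u⟩ => if he : e = c then g (tr S he u) else g (Pt.root c false)
  refine ⟨H, good_total S Ψ hΨ H (fun e => ?_) (fun e => ?_), fun u => ?_, rfl, fun e u h => ?_⟩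
  · by_cases he : e = c
    · subst he; simp only [H, dif_pos, tr_root]; exact (Ψ ⊥).refl' _
    · simp only [H, dif_neg he]; exact (Ψ ⊥).refl' _
  · by_cases he : e = c
    · simp only [H, dif_pos he]
      exact fun x u v h => hg x _ _ (good_tr S he x u v h)
    · simp only [H, dif_neg he]
      exact good_const _
  · simp only [H, dif_pos]; rfl
  · simp only [H, dif_neg h]

theorem totalSetoid_le_iff (x y : L) : totalSetoid S x ≤ totalSetoid S y ↔ x ≤ y := by
  refine ⟨fun h => ?_, fun h => totalSetoid_mono S h⟩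
  obtain ⟨s, hs, hirr⟩ := exists_supIrred_decomposition x
  rw [← hs]
  refine Finset.sup_le fun i hi => ?_
  by_contra hiy
  let j : Irr L := ⟨i, hirr hi⟩
  obtain ⟨g, hg, hroot⟩ := exists_colour S y j hiy
  obtain ⟨H, hH, hHj, -⟩ := exists_extend S (cut y) (cut_mono y) j g hg
  have hix : (j : L) ≤ x := hs ▸ Finset.le_sup (f := id) hi
  have := hH y _ _ (h (TRel.lift j _ _ (Rel.top j hix)))
  rw [hHj, hHj, hroot, hroot] at this
  exact Bool.noConfusion (cut_self this)

variable {S} in
theorem chain_theta {θ : ∀ j : Irr L, Setoid (Pt S j)}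
    (hmap : ∀ (c e : Irr L) (h : Pt S c → Pt S e), Good (relSetoid S c) (relSetoid S e) h →
      ∀ u v, θ c u v → θ e (h u) (h v))
    (hbot : ∀ (j : Irr L) (u v : Pt S j), Rel S ⊥ j u v → θ j u v) {e : Irr L} :
    ∀ {l : List (Irr L × Bool)} {P Q : Pt S e}, Chain S (relSetoid S e) l P Q →
      (∀ t ∈ l, θ t.1 (Pt.root t.1 false) (Pt.root t.1 true)) → θ e P Q
  | [], P, Q, h, _ => hbot e P Q h
  | (c, b) :: l, P, Q, ⟨g, hg, hP, hQ⟩, hl => by
    have hc := hl (c, b) List.mem_cons_self
    have h1 : θ e (g (Pt.root c (!b))) (g (Pt.root c b)) := by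
      refine hmap c e g hg _ _ ?_
      cases b
      · exact (θ c).symm' hc
      · exact hc
    exact (θ e).trans' (hbot e _ _ hP) ((θ e).trans' h1
      (chain_theta hmap hbot hQ fun t ht => hl t (List.mem_cons_of_mem _ ht)))

theorem total_closed (θ : Setoid (Total S)) (hθ : totalSetoid S ⊥ ≤ θ)
    (hinv : ∀ f : Total S → Total S, Good (totalSetoid S) (totalSetoid S) f →
      ∀ u v, θ u v → θ (f u) (f v)) : ∃ x, θ = totalSetoid S x := by
  classical
  let θ' : ∀ j : Irr L, Setoid (Pt S j) := fun j => Setoid.comap (fun u => some ⟨j, u⟩) θ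
  have hmap : ∀ (c e : Irr L) (h : Pt S c → Pt S e), Good (relSetoid S c) (relSetoid S e) h →
      ∀ u v, θ' c u v → θ' e (h u) (h v) := by
    intro c e h hh u v huv
    obtain ⟨H, hH, hHc, -⟩ := exists_extend S (totalSetoid S) (totalSetoid_mono S) c
      (fun u => some ⟨e, h u⟩) fun x u v h' => TRel.lift e _ _ (hh x u v h')
    have := hinv H hH _ _ huv
    rw [hHc, hHc] at this
    exact this
  have hbot : ∀ (j : Irr L) (u v : Pt S j), Rel S ⊥ j u v → θ' j u v :=
    fun j u v h => hθ (TRel.lift j u v h)
  let J : Finset (Irr L) :=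
    Finset.univ.filter fun j => θ' j (Pt.root j false) (Pt.root j true)
  let x : L := J.sup Subtype.val
  have hdown : ∀ c e : Irr L, θ' c (Pt.root c false) (Pt.root c true) → (e : L) ≤ c →
      θ' e (Pt.root e false) (Pt.root e true) := by
    intro c e hc hec
    obtain ⟨l, hl, -, -, hch⟩ := exists_gen S c e hec
    exact chain_theta hmap hbot hch fun t ht => by rw [hl t ht]; exact hc
  have hmem : ∀ j : Irr L, (j : L) ≤ x → θ' j (Pt.root j false) (Pt.root j true) := by
    intro j hjx
    by_cases hsome : ∃ c ∈ J, (j : L) ≤ c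
    · obtain ⟨c, hc, hjc⟩ := hsome
      exact hdown c j (Finset.mem_filter.1 hc).2 hjc
    push Not at hsome
    by_cases hja : S.Core (j : L)
    · obtain ⟨C₀, hC₀, hsup₀⟩ := S.refineCore j j.2 hja (J.image Subtype.val)
        (by rw [Finset.sup_image]; exact hjx)
      let C' : Finset (Irr L) :=
        Finset.univ.filter fun i : Irr L => S.Core (i : L) ∧ ∃ c ∈ J, (i : L) ≤ c
      obtain ⟨l, hl, -, hc⟩ := base_chain S hja C' (fun i hi => (Finset.mem_filter.1 hi).2.1) <| by
        refine hsup₀.trans (Finset.sup_le fun i hi => ?_)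
        obtain ⟨hirr, hcore, c', hc', hle⟩ := hC₀ i hi
        obtain ⟨c, hc, rfl⟩ := Finset.mem_image.1 hc'
        exact Finset.le_sup (f := Subtype.val) (b := (⟨i, hirr⟩ : Irr L))
          (Finset.mem_filter.2 ⟨Finset.mem_univ _, hcore, c, hc, hle⟩)
      refine chain_theta hmap hbot hc fun t ht => ?_
      obtain ⟨c, hc', hle⟩ := (Finset.mem_filter.1 (hl t ht)).2.2
      exact hdown c t.1 (Finset.mem_filter.1 hc').2 hle
    · obtain ⟨C', hC', hsup⟩ := S.refine' j hja (J.image Subtype.val)
        (by rw [Finset.sup_image]; exact hjx) (fun i hi => by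
          obtain ⟨c, hc, rfl⟩ := Finset.mem_image.1 hi
          exact hsome c hc)
      let C'' : Cov S j := ⟨C', hja, Finset.nonempty_iff_ne_empty.2 fun h => by
        rw [h, Finset.sup_empty] at hsup; exact j.2.ne_bot (le_bot_iff.1 hsup),
        fun i hi => by
          unfold rho
          rw [if_neg hja]
          split
          · exact Nat.succ_pos _
          · next h => exact Nat.succ_lt_succ ((hC' i hi).2.resolve_left h), hsup⟩
      refine chain_theta hmap hbot (word_chain S j C'') fun t ht => ?_
      obtain ⟨i, hi, hle⟩ := (hC' _ (mem_of_mem_word S ht)).1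
      obtain ⟨c, hc, rfl⟩ := Finset.mem_image.1 hi
      exact hdown c t.1 (Finset.mem_filter.1 hc).2 hle
  have hge : ∀ (j : Irr L) (u v : Pt S j), Rel S x j u v → θ' j u v := by
    intro j u v h
    induction h with
    | rfl' j u => exact (θ' j).refl' u
    | symm j u v _ ih => exact (θ' j).symm' ih
    | trans j u v w _ _ ih ih' => exact (θ' j).trans' ih ih'
    | top j h => exact hmem j h
    | left j h => exact hbot j _ _ (Rel.left j h)
    | right j h => exact hbot j _ _ (Rel.right j h)
    | glue j C i => exact hbot j _ _ (Rel.glue j C i)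
    | last j C => exact hbot j _ _ (Rel.last j C)
    | deep j C i u v _ ih => exact hmap _ j _ (good_deep S j C i) u v ih
    | base j hj u v huv =>
      let τ : Setoid (Fin S.n) := Setoid.comap (Pt.core j hj) (θ' j)
      obtain ⟨y, -, hy⟩ := S.closed τ fun g hg a b hab => by
        obtain ⟨h, hh, hz, -⟩ := exists_core_map S j j hj hj g hg
        have := hmap j j h hh _ _ hab
        rw [hz, hz] at this
        exact this
      obtain ⟨y₀, hy₀a, hy₀⟩ := S.closed (S.Φ x) fun g hg a b hab => hg x a b hab
      have hle : y₀ ≤ y := by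
        obtain ⟨s, hs, hirr⟩ := hy₀a
        rw [← hs]
        refine Finset.sup_le fun i hi => ?_
        have hiy : i ≤ y₀ := hs ▸ Finset.le_sup (f := id) hi
        let e : Irr L := ⟨i, (hirr i hi).1⟩
        have hea : S.Core (e : L) := (hirr i hi).2
        have hex : (e : L) ≤ x := (S.pair e hea x).1 <| by
          rw [hy₀]; exact (S.pair e hea y₀).2 hiy
        obtain ⟨h, hh, -, hp, hq⟩ := exists_core_map S e j hea hj id fun _ _ _ h => h
        have h1' := hmap e j h hh _ _ (hmem e hex)
        rw [hp, hq] at h1'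
        have h1 : τ (S.p e) (S.q e) := h1'
        rw [hy] at h1
        exact (S.pair e hea y).1 h1
      have : τ u v := by
        rw [hy]; exact S.mono hle (by rw [← hy₀]; exact huv)
      exact this
  have hInv : Invariant θ' x :=
    ⟨hmap, hge, fun j h => Finset.le_sup (f := Subtype.val)
      (Finset.mem_filter.2 ⟨Finset.mem_univ _, h⟩)⟩
  refine ⟨x, le_antisymm ?_ ?_⟩
  · have hbase : ∀ (j : Irr L) (u : Pt S j) (w : Total S), θ (some ⟨j, u⟩) w →
        (∀ v, w ≠ some ⟨j, v⟩) → TRel S x (some ⟨j, u⟩) none := by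
      intro j u w h hw
      obtain ⟨H, hH, hHj, hH0, hHe⟩ := exists_extend S (totalSetoid S) (totalSetoid_mono S) j
        (fun u => some ⟨j, u⟩) fun y u v h' => TRel.lift j u v h'
      have h1 := hinv H hH _ _ h
      rw [hHj] at h1
      have h2 : θ (some ⟨j, u⟩) (some ⟨j, Pt.root j false⟩) := by
        rcases w with _ | ⟨e, v⟩
        · rwa [hH0] at h1
        · rwa [hHe e v fun he => by subst he; exact hw v rfl] at h1
      exact TRel.trans _ _ _ (TRel.lift j _ _ (hInv.detect j _ _ h2))
        (TRel.symm _ _ (TRel.base j))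
    intro u v huv
    change TRel S x u v
    rcases u with _ | ⟨j, u⟩ <;> rcases v with _ | ⟨e, v⟩
    · exact TRel.rfl' _
    · exact TRel.symm _ _ (hbase e v none (θ.symm' huv) fun _ => by simp)
    · exact hbase j u none huv fun _ => by simp
    · by_cases hje : e = j
      · subst hje
        exact TRel.lift e _ _ (hInv.detect e u v huv)
      · exact TRel.trans _ _ _ (hbase j u _ huv fun v' h => hje (congrArg Sigma.fst (Option.some.inj h)))
          (TRel.symm _ _ (hbase e v _ (θ.symm' huv)
            fun v' h => hje (congrArg Sigma.fst (Option.some.inj h)).symm))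
  · intro u v huv
    change TRel S x u v at huv
    induction huv with
    | rfl' u => exact θ.refl' u
    | symm u v _ ih => exact θ.symm' ih
    | trans u v w _ _ ih ih' => exact θ.trans' ih ih'
    | base j => exact hθ (TRel.base j)
    | lift j u v h => exact hge j u v h

include S in
theorem representable_of_frame :
    ∃ (n : ℕ) (F : Set (Fin n → Fin n)), 0 < n ∧
      Nonempty (L ≃o {s : Setoid (Fin n) // ∀ f ∈ F, ∀ a b, s a b → s (f a) (f b)}) :=
  exists_fin_system (OrderEmbedding.ofMapLEIff (totalSetoid S) (totalSetoid_le_iff S))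
    fun θ h1 h2 => total_closed S θ h1 h2

end Vale.Agent.P183
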