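import Vale.Agent.P183.Chain

/-!
P183: colourings of the paths, and chains from the roots of a larger irreducible to a smaller one.
-/

namespace Vale.Agent.P183

variable {L : Type*} [Lattice L] [OrderBot L] [Fintype L] (S : Frame L)

theorem relSetoid_mono (j : Irr L) : Monotone (relSetoid S j) :=
  fun _ _ h _ _ huv => rel_mono S h huv

/-- The two-point system that separates at one element. -/
noncomputable def cut (x₀ : L) (y : L) : Setoid Bool := by
  classical
  exact if y ≤ x₀ then ⊥ else ⊤

omit [Fintype L] [OrderBot L] in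
theorem cut_mono (x₀ : L) : Monotone (cut x₀) := by
  intro y y' h
  unfold cut
  split_ifs with h1 h2
  · exact le_rfl
  · exact bot_le
  · next h2 => exact absurd (h.trans h2) h1
  · exact le_rfl

omit [Fintype L] [OrderBot L] in
theorem cut_self {x₀ : L} {b b' : Bool} (h : cut x₀ x₀ b b') : b = b' := by
  unfold cut at h
  rw [if_pos le_rfl] at h
  exact h

omit [Fintype L] [OrderBot L] in
theorem cut_of_not_le {x₀ y : L} (h : ¬ y ≤ x₀) (b b' : Bool) : cut x₀ y b b' := by
  unfold cut
  rw [if_neg h]
  trivial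

theorem core_no_cov {j : Irr L} (hj : S.Core (j : L)) (C : Cov S j) : False := C.2.1 hj

theorem exists_colour (x₀ : L) : ∀ j : Irr L, ¬ (j : L) ≤ x₀ →
    ∃ h : Pt S j → Bool, Good (relSetoid S j) (cut x₀) h ∧ ∀ b, h (Pt.root j b) = b := by
  classical
  suffices main : ∀ (k : ℕ) (j : Irr L), rho S j < k → ¬ (j : L) ≤ x₀ →
      ∃ h : Pt S j → Bool, Good (relSetoid S j) (cut x₀) h ∧ ∀ b, h (Pt.root j b) = b from
    fun j => main _ j (Nat.lt_succ_self _)
  intro k
  induction k with
  | zero => exact fun j h => absurd h (Nat.not_lt_zero _)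
  | succ k ih =>
    intro j hjk hj
    by_cases hja : S.Core (j : L)
    · let h : Pt S j → Bool := fun u => match u with
        | .root _ b => b
        | .core _ _ v => decide (¬ S.Φ x₀ v (S.p j))
        | .deep _ _ _ _ => false
      refine ⟨h, good_of_parts S _ (cut_mono x₀) j h (cut_of_not_le hj _ _) (fun _ => ?_)
        (fun C => (core_no_cov S hja C).elim) (fun C => (core_no_cov S hja C).elim), fun _ => rfl⟩
      refine ⟨fun y u v huv => ?_, ?_, ?_⟩
      · by_cases hy : y ≤ x₀
        · have hxy := S.mono hy huv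
          have : (S.Φ x₀ u (S.p j)) ↔ S.Φ x₀ v (S.p j) :=
            ⟨fun h' => (S.Φ x₀).trans' ((S.Φ x₀).symm' hxy) h', fun h' => (S.Φ x₀).trans' hxy h'⟩
          simp only [h, this]
          exact (cut x₀ y).refl' _
        · exact cut_of_not_le hy _ _
      · simp only [h, not_not.2 ((S.Φ x₀).refl' (S.p j)), decide_false]
        exact (cut x₀ ⊥).refl' _
      · simp only [h, show ¬ S.Φ x₀ (S.q j) (S.p j) from
          fun h' => hj ((S.pair j hja x₀).1 ((S.Φ x₀).symm' h')), not_false_eq_true, decide_true]
        exact (cut x₀ ⊥).refl' _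
    · refine exists_glue S (cut_mono x₀) j hja id (cut_of_not_le hj _ _) (fun C => ?_) |>.imp
        fun h hh => hh
      obtain ⟨e, he, hex⟩ : ∃ e ∈ C.1, ¬ (e : L) ≤ x₀ := by
        by_contra hne
        push Not at hne
        exact hj (C.2.2.2.2.trans (Finset.sup_le hne))
      obtain ⟨g, hg, hroot⟩ := ih e (lt_of_lt_of_le (C.2.2.2.1 e he) (Nat.lt_succ_iff.1 hjk)) hex
      refine Chain.sublist (s := [(e, true)]) (sublist_word (by simp [he]) ?_) ?_
      · simp [rounds, Nat.one_le_pow, roundBase]
      · refine ⟨g, hg, ?_, ?_⟩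
        · rw [hroot]; exact (cut x₀ ⊥).refl' _
        · rw [hroot]; exact (cut x₀ ⊥).refl' _

theorem base_chain {e : Irr L} (he : S.Core (e : L)) (C : Finset (Irr L))
    (hC : ∀ i ∈ C, S.Core (i : L)) (hle : (e : L) ≤ C.sup Subtype.val) :
    ∃ l : List (Irr L × Bool), (∀ t ∈ l, t.1 ∈ C) ∧ l.length ≤ S.n ∧
      Chain S (relSetoid S e) l (Pt.root e false) (Pt.root e true) := by
  classical
  obtain ⟨G, w, hlen, hG⟩ := S.exists_walk C Subtype.val S.p S.q (fun i hi => S.pair i (hC i hi))
    hle (S.pair e he)
  suffices main : ∀ (c d : Fin S.n) (w : G.Walk c d), ∃ l : List (Irr L × Bool),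
      (∀ t ∈ l, t.1 ∈ C) ∧ l.length = w.length ∧
        Chain S (relSetoid S e) l (Pt.core e he c) (Pt.core e he d) by
    obtain ⟨l, hl, hll, hc⟩ := main _ _ w
    exact ⟨l, hl, hll.le.trans hlen,
      Chain.left (Rel.left e he) (Chain.right hc (Rel.symm e _ _ (Rel.right e he)))⟩
  intro c d w
  induction w with
  | nil => exact ⟨[], by simp, rfl, Rel.rfl' e _⟩
  | @cons c m d hcm _ ih =>
    obtain ⟨l, hl, hll, hc⟩ := ih
    obtain ⟨i, hi, g, hg, hends⟩ := hG _ _ hcm
    let h : Pt S i → Pt S e := fun u => match u with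
      | .root _ b => Pt.core e he (g (if b then S.q i else S.p i))
      | .core _ _ v => Pt.core e he (g v)
      | .deep _ _ _ _ => Pt.root e false
    have hgood : Good (relSetoid S i) (relSetoid S e) h := by
      refine good_of_parts S _ (relSetoid_mono S e) i h ?_
        (fun _ => ⟨fun x u v huv => Rel.base e he _ _ (hg x _ _ huv), Rel.rfl' e _, Rel.rfl' e _⟩)
        (fun C => (core_no_cov S (hC i hi) C).elim) (fun C => (core_no_cov S (hC i hi) C).elim)
      simp only [h, if_true, Bool.false_eq_true, if_false]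
      exact Rel.base e he _ _ (hg _ _ _ ((S.pair i (hC i hi) _).2 le_rfl))
    rcases hends with ⟨hp, hq⟩ | ⟨hq, hp⟩
    · refine ⟨(i, true) :: l, fun t ht => ?_, by simp [hll], h, hgood, ?_, ?_⟩
      · rcases List.mem_cons.1 ht with rfl | ht
        exacts [hi, hl t ht]
      · simp only [h, Bool.not_true, Bool.false_eq_true, if_false, hp]; exact Rel.rfl' e _
      · simpa only [h, if_true, hq] using hc
    · refine ⟨(i, false) :: l, fun t ht => ?_, by simp [hll], h, hgood, ?_, ?_⟩
      · rcases List.mem_cons.1 ht with rfl | ht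
        exacts [hi, hl t ht]
      · simp only [h, Bool.not_false, if_true, hq]; exact Rel.rfl' e _
      · simpa only [h, Bool.false_eq_true, if_false, hp] using hc

theorem word_chain (j : Irr L) (C : Cov S j) :
    Chain S (relSetoid S j) (word S j C) (Pt.root j false) (Pt.root j true) := by
  suffices main : ∀ (k m : ℕ), m + k = (word S j C).length →
      Chain S (relSetoid S j) ((word S j C).drop m) (node S j C m) (Pt.root j true) by
    simpa [node] using main _ 0 (zero_add _)
  intro k
  induction k with
  | zero =>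
    intro m hm
    rw [Nat.add_zero] at hm
    subst hm
    rw [List.drop_length]
    exact Rel.last j C
  | succ k ih =>
    intro m hm
    have hlt : m < (word S j C).length := by omega
    rw [List.drop_eq_getElem_cons hlt]
    refine ⟨Pt.deep j C ⟨m, hlt⟩, good_deep S j C ⟨m, hlt⟩, Rel.glue j C ⟨m, hlt⟩, ?_⟩
    have := ih (m + 1) (by omega)
    simp only [node, dif_pos hlt] at this
    exact this

theorem Chain.expand {C : Finset (Irr L)} {T : Type*} {Ψ : L → Setoid T} {K : ℕ} :
    ∀ {l : List (Irr L × Bool)} {P Q : T}, Chain S Ψ l P Q →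
      (∀ t ∈ l, ∃ l', (∀ u ∈ l', u.1 ∈ C) ∧ l'.length ≤ K ∧
        Chain S (relSetoid S t.1) l' (Pt.root t.1 false) (Pt.root t.1 true)) →
      ∃ l', (∀ u ∈ l', u.1 ∈ C) ∧ l'.length ≤ l.length * K ∧ Chain S Ψ l' P Q
  | [], P, Q, h, _ => ⟨[], by simp, by simp, h⟩
  | (c, b) :: l, P, Q, ⟨g, hg, hP, hQ⟩, hsub => by
    obtain ⟨l₂, h₂, hlen₂, hc₂⟩ := Chain.expand hQ fun t ht => hsub t (List.mem_cons_of_mem _ ht)
    obtain ⟨l₁, h₁, hlen₁, hc₁⟩ := hsub (c, b) List.mem_cons_self
    obtain ⟨l₃, h₃, hlen₃, hc₃⟩ : ∃ l₃, (∀ u ∈ l₃, u.1 ∈ C) ∧ l₃.length ≤ K ∧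
        Chain S (relSetoid S c) l₃ (Pt.root c (!b)) (Pt.root c b) := by
      cases b
      · refine ⟨revWord l₁, fun u hu => ?_, by simpa [revWord] using hlen₁, hc₁.reverse⟩
        simp only [revWord, List.mem_reverse, List.mem_map] at hu
        obtain ⟨t, ht, rfl⟩ := hu
        exact h₁ t ht
      · exact ⟨l₁, h₁, hlen₁, hc₁⟩
    refine ⟨l₃ ++ l₂, fun u hu => ?_, ?_, Chain.append (Chain.left hP (hc₃.map hg)) hc₂⟩
    · rcases List.mem_append.1 hu with hu | hu
      exacts [h₃ u hu, h₂ u hu]
    · simp only [List.length_append, List.length_cons, add_mul, one_mul]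
      omega

theorem rounds_mul_le {e d : Irr L} (h : (e : L) < d) :
    roundBase S * rounds S e ≤ rounds S d := by
  classical
  rw [rounds, rounds, ← pow_succ']
  refine Nat.pow_le_pow_right (by simp [roundBase]) (Nat.succ_le_succ (Finset.card_lt_card ?_))
  rw [Finset.ssubset_iff_of_subset (fun y hy => by
    simp only [Finset.mem_filter, Finset.mem_univ, true_and] at hy ⊢; exact hy.trans h.le)]
  exact ⟨d, by simp, by simpa using fun hd => h.not_ge hd⟩

theorem length_word_le (j : Irr L) (C : Cov S j) :
    (word S j C).length ≤ rounds S j * (2 * Fintype.card L) := by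
  simp only [word, List.length_flatten, List.map_replicate, List.sum_replicate, smul_eq_mul, block,
    List.length_append, List.length_map, Finset.length_toList]
  refine Nat.mul_le_mul_left _ ?_
  have : C.1.card ≤ Fintype.card L :=
    (Finset.card_le_univ _).trans (Fintype.card_le_of_injective _ Subtype.val_injective)
  omega

theorem exists_gen : ∀ d e : Irr L, (e : L) ≤ d → ∃ l : List (Irr L × Bool), (∀ t ∈ l, t.1 = d) ∧
    l.length ≤ rounds S e * (2 * Fintype.card L) + S.n + 1 ∧
    ((S.Core (d : L) → S.Core (e : L)) → l.length ≤ S.n + 1) ∧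
    Chain S (relSetoid S e) l (Pt.root e false) (Pt.root e true) := by
  classical
  suffices main : ∀ (k : ℕ) (d e : Irr L), rho S d < k → (e : L) ≤ d →
      ∃ l : List (Irr L × Bool), (∀ t ∈ l, t.1 = d) ∧
        l.length ≤ rounds S e * (2 * Fintype.card L) + S.n + 1 ∧
        ((S.Core (d : L) → S.Core (e : L)) → l.length ≤ S.n + 1) ∧
        Chain S (relSetoid S e) l (Pt.root e false) (Pt.root e true) from
    fun d e => main _ d e (Nat.lt_succ_self _)
  intro k
  induction k with
  | zero => exact fun d e h => absurd h (Nat.not_lt_zero _)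
  | succ k ih =>
    intro d e hdk hed
    by_cases heq : e = d
    · subst heq
      exact ⟨[(e, true)], by simp, by simp, fun _ => by simp, id, fun _ _ _ h => h, Rel.rfl' e _,
        Rel.rfl' e _⟩
    by_cases hda : S.Core (d : L)
    · by_cases hea : S.Core (e : L)
      · obtain ⟨l, hl, hlen, hc⟩ := base_chain S hea {d} (by simpa using hda) (by simpa using hed)
        exact ⟨l, fun t ht => by simpa using hl t ht, by omega, fun _ => by omega, hc⟩
      · let C : Cov S e := ⟨{d}, hea, Finset.singleton_nonempty d, fun i hi => by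
          rw [Finset.mem_singleton.1 hi]
          unfold rho
          rw [if_pos hda, if_neg hea]
          exact Nat.succ_pos _, by simpa using hed⟩
        refine ⟨word S e C, fun t ht => Finset.mem_singleton.1 (mem_of_mem_word S ht :),
          le_trans (length_word_le S e C) (by omega), fun h => absurd (h hda) hea, word_chain S e C⟩
    have hlt : (e : L) < d := lt_of_le_of_ne hed fun h => heq (Subtype.ext h)
    have hbound : (rounds S e * (2 * Fintype.card L) + S.n + 1) * (S.n + 1) ≤ rounds S d := by
      refine le_trans ?_ (rounds_mul_le S hlt)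
      have h1 : 1 ≤ rounds S e := Nat.one_le_pow _ _ (by simp [roundBase])
      have h2 : rounds S e * (2 * Fintype.card L) + S.n + 1 ≤
          rounds S e * ((2 * Fintype.card L + 2) * (S.n + 2)) := by
        calc _ ≤ rounds S e * (2 * Fintype.card L) + rounds S e * (S.n + 1) :=
              Nat.add_le_add_left (Nat.le_mul_of_pos_left (S.n + 1) h1) _
          _ = rounds S e * (2 * Fintype.card L + (S.n + 1)) := (Nat.mul_add _ _ _).symm
          _ ≤ _ := Nat.mul_le_mul_left _ (by nlinarith)
      calc _ ≤ rounds S e * ((2 * Fintype.card L + 2) * (S.n + 2)) * (S.n + 2) :=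
            Nat.mul_le_mul h2 (by omega)
        _ ≤ roundBase S * rounds S e := by simp only [roundBase]; nlinarith
    have hall : ∀ C : Cov S d,
        Chain S (relSetoid S e) (word S d C) (Pt.root e false) (Pt.root e true) := by
      intro C
      have hrk : ∀ c ∈ C.1, rho S c < k := fun c hc =>
        lt_of_lt_of_le (C.2.2.2.1 c hc) (Nat.lt_succ_iff.1 hdk)
      by_cases hsome : ∃ c ∈ C.1, (e : L) ≤ c
      · obtain ⟨c, hc, hec⟩ := hsome
        obtain ⟨l, hl, hlen, -, hch⟩ := ih c e (hrk c hc) hec
        refine Chain.sublist (sublist_word (fun t ht => hl t ht ▸ hc) (hlen.trans ?_)) hch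
        exact le_trans (Nat.le_mul_of_pos_right _ (Nat.succ_pos _)) hbound
      push Not at hsome
      obtain ⟨l₁, hl₁, hlen₁, hc₁⟩ : ∃ l₁ : List (Irr L × Bool),
          (∀ t ∈ l₁, ∃ c ∈ C.1, (t.1 : L) ≤ c ∧ (S.Core (c : L) → S.Core (t.1 : L))) ∧
            l₁.length ≤ rounds S e * (2 * Fintype.card L) + S.n + 1 ∧
            Chain S (relSetoid S e) l₁ (Pt.root e false) (Pt.root e true) := by
        by_cases hea : S.Core (e : L)
        · obtain ⟨C₀, hC₀, hsup₀⟩ := S.refineCore e e.2 hea (C.1.image Subtype.val)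
            (by rw [Finset.sup_image]; exact hed.trans C.2.2.2.2)
          let C' : Finset (Irr L) :=
            Finset.univ.filter fun i : Irr L => S.Core (i : L) ∧ ∃ c ∈ C.1, (i : L) ≤ c
          obtain ⟨l, hl, hlen, hc⟩ := base_chain S hea C' (fun i hi => (Finset.mem_filter.1 hi).2.1) <| by
            refine hsup₀.trans (Finset.sup_le fun i hi => ?_)
            obtain ⟨hirr, hcore, c', hc', hle⟩ := hC₀ i hi
            obtain ⟨c, hc, rfl⟩ := Finset.mem_image.1 hc'
            exact Finset.le_sup (f := Subtype.val) (b := (⟨i, hirr⟩ : Irr L))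
              (Finset.mem_filter.2 ⟨Finset.mem_univ _, hcore, c, hc, hle⟩)
          refine ⟨l, fun t ht => ?_, by omega, hc⟩
          obtain ⟨-, hcore, c, hc', hle⟩ := Finset.mem_filter.1 (hl t ht)
          exact ⟨c, hc', hle, fun _ => hcore⟩
        · obtain ⟨C', hC', hsup⟩ := S.refine' e hea (C.1.image Subtype.val)
            (by rw [Finset.sup_image]; exact hed.trans C.2.2.2.2) (fun x hx => by
              obtain ⟨i, hi, rfl⟩ := Finset.mem_image.1 hx
              exact hsome i hi)
          let ψ : Irr L → Irr L := fun i =>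
            if h : ∃ c ∈ C.1, S.Core (c : L) ∧ (i : L) ≤ c then h.choose else i
          have hψ : ∀ i : Irr L, (i : L) ≤ (ψ i : L) := fun i => by
            by_cases h : ∃ c ∈ C.1, S.Core (c : L) ∧ (i : L) ≤ c
            · simp only [ψ, dif_pos h]; exact h.choose_spec.2.2
            · simp only [ψ, dif_neg h]; exact le_rfl
          let C'' : Cov S e := ⟨C'.image ψ, hea, by
            refine (Finset.nonempty_iff_ne_empty.2 fun h => ?_).image ψ
            rw [h, Finset.sup_empty] at hsup
            exact e.2.ne_bot (le_bot_iff.1 hsup),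
            fun i hi => by
              obtain ⟨i', hi', rfl⟩ := Finset.mem_image.1 hi
              unfold rho
              rw [if_neg hea]
              split
              · exact Nat.succ_pos _
              · next hn =>
                by_cases h : ∃ c ∈ C.1, S.Core (c : L) ∧ (i' : L) ≤ c
                · exact absurd (by simp only [ψ, dif_pos h]; exact h.choose_spec.2.1) hn
                · simp only [ψ, dif_neg h] at hn ⊢
                  exact Nat.succ_lt_succ ((hC' i' hi').2.resolve_left hn),
            hsup.trans (Finset.sup_le fun i hi =>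
              (hψ i).trans (Finset.le_sup (f := Subtype.val) (Finset.mem_image_of_mem ψ hi)))⟩
          refine ⟨word S e C'', fun t ht => ?_, (length_word_le S e C'').trans (by omega),
            word_chain S e C''⟩
          obtain ⟨i, hi, hit⟩ := Finset.mem_image.1 (mem_of_mem_word S ht :)
          by_cases h : ∃ c ∈ C.1, S.Core (c : L) ∧ (i : L) ≤ c
          · simp only [ψ, dif_pos h] at hit
            exact ⟨t.1, hit ▸ h.choose_spec.1, le_rfl, fun h => h⟩
          · simp only [ψ, dif_neg h] at hit
            obtain ⟨c', hc', hle⟩ := (hC' i hi).1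
            obtain ⟨c, hc, rfl⟩ := Finset.mem_image.1 hc'
            exact ⟨c, hc, hit ▸ hle, fun hcore => absurd ⟨c, hc, hcore, hle⟩ h⟩
      obtain ⟨l₂, hl₂, hlen₂, hc₂⟩ := Chain.expand S (C := C.1) (K := S.n + 1) hc₁ fun t ht => by
        obtain ⟨c, hc, hle, hcore⟩ := hl₁ t ht
        obtain ⟨l, hl, -, hlen, hch⟩ := ih c t.1 (hrk c hc) hle
        exact ⟨l, fun u hu => hl u hu ▸ hc, hlen hcore, hch⟩
      exact Chain.sublist (sublist_word hl₂ (hlen₂.trans
        (le_trans (Nat.mul_le_mul_right _ hlen₁) hbound))) hc₂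
    obtain ⟨g, hg, hroot⟩ := exists_glue S (relSetoid_mono S e) d hda (Pt.root e) (Rel.top e hed) hall
    refine ⟨[(d, true)], by simp, by simp, fun _ => by simp, g, hg, ?_, ?_⟩
    · rw [hroot]; exact Rel.rfl' e _
    · rw [hroot]; exact Rel.rfl' e _

end Vale.Agent.P183
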