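import Vale.Agent.P183.Base

/-!
P183: the series-parallel points attached to the join-irreducible elements, and their relations.
-/

namespace Vale.Agent.P183

variable {L : Type*}

/-- The join-irreducible elements. -/
abbrev Irr (L : Type*) [Lattice L] := {j : L // SupIrred j}

/-- The setting: a representation and a rank on the irreducibles outside the core. -/
structure Frame (L : Type*) [Lattice L] [OrderBot L] [Fintype L] extends Base L where
  /-- The rank. -/
  r : Irr L → ℕ
  /-- Chosen left end of the principal pair. -/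
  p : Irr L → Fin n
  /-- Chosen right end of the principal pair. -/
  q : Irr L → Fin n
  /-- The pair generates. -/
  pair : ∀ j : Irr L, Core (j : L) → ∀ x, Φ x (p j) (q j) ↔ (j : L) ≤ x
  /-- Covers refine downwards in rank. -/
  refine' : ∀ j : Irr L, ¬ Core (j : L) → ∀ C : Finset L, (j : L) ≤ C.sup id →
    (∀ c ∈ C, ¬ (j : L) ≤ c) → ∃ C' : Finset (Irr L), (∀ e ∈ C', (∃ c ∈ C, (e : L) ≤ c) ∧
      (Core (e : L) ∨ r e < r j)) ∧ (j : L) ≤ C'.sup Subtype.val

variable [Lattice L] [OrderBot L] [Fintype L] (S : Frame L)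

/-- The rank extended by zero to the core. -/
noncomputable def rho (j : Irr L) : ℕ := by
  classical
  exact if S.Core (j : L) then 0 else S.r j + 1

/-- Admissible covers. -/
def Cov (j : Irr L) : Type _ :=
  {C : Finset (Irr L) // ¬ S.Core (j : L) ∧ C.Nonempty ∧ (∀ e ∈ C, rho S e < rho S j) ∧
    (j : L) ≤ C.sup Subtype.val}

noncomputable instance : Fintype (Irr L) := Fintype.ofFinite _

/-- The base of the number of rounds. -/
def roundBase : ℕ := (2 * Fintype.card L + 2) * (S.n + 2) ^ 2 + 3

/-- The number of rounds. -/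
noncomputable def rounds (j : Irr L) : ℕ := by
  classical
  exact roundBase S ^ ((Finset.univ.filter fun e : L => e ≤ (j : L)).card + 1)

/-- One round. -/
noncomputable def block (C : Finset (Irr L)) : List (Irr L × Bool) :=
  C.toList.map (fun e => (e, true)) ++ C.toList.map (fun e => (e, false))

/-- The word of a cover. -/
noncomputable def word (j : Irr L) (C : Cov S j) : List (Irr L × Bool) :=
  (List.replicate (rounds S j) (block C.1)).flatten

/-- The points over an irreducible. -/
inductive Pt : Irr L → Type _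
  | root (j : Irr L) (b : Bool) : Pt j
  | core (j : Irr L) (h : S.Core (j : L)) (x : Fin S.n) : Pt j
  | deep (j : Irr L) (C : Cov S j) (i : Fin (word S j C).length) (x : Pt ((word S j C)[i]).1) : Pt j

/-- The first end of a copy. -/
noncomputable def fstEnd (j : Irr L) (C : Cov S j) (i : Fin (word S j C).length) : Pt S j :=
  Pt.deep j C i (Pt.root _ (!((word S j C)[i]).2))

/-- The second end of a copy. -/
noncomputable def sndEnd (j : Irr L) (C : Cov S j) (i : Fin (word S j C).length) : Pt S j :=
  Pt.deep j C i (Pt.root _ ((word S j C)[i]).2)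

/-- The nodes of a path. -/
noncomputable def node (j : Irr L) (C : Cov S j) : ℕ → Pt S j
  | 0 => Pt.root j false
  | m + 1 => if h : m < (word S j C).length then sndEnd S j C ⟨m, h⟩ else Pt.root j true

/-- The relations. -/
inductive Rel (x : L) : ∀ j : Irr L, Pt S j → Pt S j → Prop
  | rfl' (j) (u : Pt S j) : Rel x j u u
  | symm (j) (u v : Pt S j) : Rel x j u v → Rel x j v u
  | trans (j) (u v w : Pt S j) : Rel x j u v → Rel x j v w → Rel x j u w
  | top (j : Irr L) : (j : L) ≤ x → Rel x j (Pt.root j false) (Pt.root j true)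
  | base (j : Irr L) (h : S.Core (j : L)) (u v : Fin S.n) : S.Φ x u v →
      Rel x j (Pt.core j h u) (Pt.core j h v)
  | left (j : Irr L) (h : S.Core (j : L)) : Rel x j (Pt.root j false) (Pt.core j h (S.p j))
  | right (j : Irr L) (h : S.Core (j : L)) : Rel x j (Pt.root j true) (Pt.core j h (S.q j))
  | glue (j : Irr L) (C : Cov S j) (i : Fin (word S j C).length) :
      Rel x j (node S j C i) (fstEnd S j C i)
  | last (j : Irr L) (C : Cov S j) : Rel x j (node S j C (word S j C).length) (Pt.root j true)
  | deep (j : Irr L) (C : Cov S j) (i : Fin (word S j C).length) (u v : Pt S ((word S j C)[i]).1) :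
      Rel x _ u v → Rel x j (Pt.deep j C i u) (Pt.deep j C i v)

/-- The system over an irreducible. -/
def relSetoid (j : Irr L) (x : L) : Setoid (Pt S j) where
  r := Rel S x j
  iseqv := ⟨Rel.rfl' j, fun h => Rel.symm j _ _ h, fun h h' => Rel.trans j _ _ _ h h'⟩

theorem rel_mono {x y : L} (hxy : x ≤ y) {j : Irr L} {u v : Pt S j} (h : Rel S x j u v) :
    Rel S y j u v := by
  induction h with
  | rfl' j u => exact Rel.rfl' j u
  | symm j u v _ ih => exact Rel.symm j u v ih
  | trans j u v w _ _ ih ih' => exact Rel.trans j u v w ih ih'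
  | top j h => exact Rel.top j (h.trans hxy)
  | base j h u v huv => exact Rel.base j h u v (S.mono hxy huv)
  | left j h => exact Rel.left j h
  | right j h => exact Rel.right j h
  | glue j C i => exact Rel.glue j C i
  | last j C => exact Rel.last j C
  | deep j C i u v _ ih => exact Rel.deep j C i u v ih

theorem good_deep (j : Irr L) (C : Cov S j) (i : Fin (word S j C).length) :
    Good (relSetoid S ((word S j C)[i]).1) (relSetoid S j) (Pt.deep j C i) :=
  fun _ u v h => Rel.deep j C i u v h

theorem good_core (j : Irr L) (h : S.Core (j : L)) :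
    Good S.Φ (relSetoid S j) (Pt.core j h) :=
  fun _ u v huv => Rel.base j h u v huv

/-- The criterion for good maps. -/
theorem good_of_parts {T : Type*} (Ψ : L → Setoid T) (hΨ : Monotone Ψ) (j : Irr L) (h : Pt S j → T)
    (htop : Ψ j (h (Pt.root j false)) (h (Pt.root j true)))
    (hcore : ∀ hj : S.Core (j : L), Good S.Φ Ψ (fun u => h (Pt.core j hj u)) ∧
      Ψ ⊥ (h (Pt.root j false)) (h (Pt.core j hj (S.p j))) ∧
      Ψ ⊥ (h (Pt.root j true)) (h (Pt.core j hj (S.q j))))
    (hglue : ∀ C, (∀ i : Fin (word S j C).length, Ψ ⊥ (h (node S j C i)) (h (fstEnd S j C i))) ∧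
      Ψ ⊥ (h (node S j C (word S j C).length)) (h (Pt.root j true)))
    (hdeep : ∀ C i, Good (relSetoid S ((word S j C)[i]).1) Ψ (fun u => h (Pt.deep j C i u))) :
    Good (relSetoid S j) Ψ h := by
  intro x u v huv
  induction huv with
  | rfl' j u => exact (Ψ x).refl' _
  | symm j u v _ ih => exact (Ψ x).symm' (ih h htop hcore hglue hdeep)
  | trans j u v w _ _ ih ih' =>
    exact (Ψ x).trans' (ih h htop hcore hglue hdeep) (ih' h htop hcore hglue hdeep)
  | top j hjx => exact hΨ hjx htop
  | base j hj u v huv => exact (hcore hj).1 x u v huv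
  | left j hj => exact hΨ bot_le (hcore hj).2.1
  | right j hj => exact hΨ bot_le (hcore hj).2.2
  | glue j C i => exact hΨ bot_le ((hglue C).1 i)
  | last j C => exact hΨ bot_le (hglue C).2
  | deep j C i u v huv _ => exact hdeep C i x u v huv

theorem mem_of_mem_word {j : Irr L} {C : Cov S j} {t : Irr L × Bool} (ht : t ∈ word S j C) :
    t.1 ∈ C.1 := by
  simp only [word, List.mem_flatten, List.mem_replicate] at ht
  obtain ⟨l, ⟨-, rfl⟩, hl⟩ := ht
  simp only [block, List.mem_append, List.mem_map, Finset.mem_toList] at hl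
  rcases hl with ⟨e, he, rfl⟩ | ⟨e, he, rfl⟩ <;> exact he

instance finite_pt (j : Irr L) : Finite (Pt S j) := by
  suffices main : ∀ (k : ℕ) (j : Irr L), rho S j < k → Finite (Pt S j) from
    main _ j (Nat.lt_succ_self _)
  intro k
  induction k with
  | zero => exact fun j h => absurd h (Nat.not_lt_zero _)
  | succ k ih =>
    intro j hj
    have : Finite (Cov S j) := Subtype.finite
    have hsub : ∀ (C : Cov S j) (i : Fin (word S j C).length),
        Finite (Pt S ((word S j C)[i]).1) := fun C i => by
      exact ih _ (lt_of_lt_of_le (C.2.2.2.1 _ (mem_of_mem_word S (List.getElem_mem i.2)))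
        (Nat.lt_succ_iff.1 hj))
    let f : Bool ⊕ (PLift (S.Core (j : L)) × Fin S.n) ⊕
        (Σ C : Cov S j, Σ i : Fin (word S j C).length, Pt S ((word S j C)[i]).1) → Pt S j
      | .inl b => Pt.root j b
      | .inr (.inl (h, x)) => Pt.core j h.down x
      | .inr (.inr ⟨C, i, x⟩) => Pt.deep j C i x
    refine Finite.of_surjective f fun u => ?_
    cases u with
    | root _ b => exact ⟨.inl b, rfl⟩
    | core _ h x => exact ⟨.inr (.inl (⟨h⟩, x)), rfl⟩
    | deep _ C i x => exact ⟨.inr (.inr ⟨C, i, x⟩), rfl⟩

end Vale.Agent.P183
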